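import Vale.Agent.P150.Crit.Moment

/-!
The two cavity inequalities with a weight whose change is controlled by the centred change of the
fine statistic and a coarse exponential statistic.
-/

namespace Vale.Agent.P150

open MeasureTheory ProbabilityTheory Real Finset

variable {n : ℕ} {ν : Conf n → ℝ} {a b Nr s ε lam κ M P0 : ℝ} {F : Conf n → Conf n → ℝ}

/-- fourth moment of a Gaussian linear form by an exponential moment -/
lemma integral_dot_pow_four (v : Fin n → ℝ) :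
    Integrable (fun g => dot v g ^ 4) (gaussVec (Fin n)) ∧
    ∫ g, dot v g ^ 4 ∂gaussVec (Fin n) ≤ 96 * sq2 v ^ 2 := by
  have hsq : 0 ≤ sq2 v := Finset.sum_nonneg fun k _ => sq_nonneg _
  rcases hsq.eq_or_lt with h0 | h0
  · have hv : ∀ k, v k = 0 := fun k => pow_eq_zero_iff two_ne_zero |>.1
      ((Finset.sum_eq_zero_iff_of_nonneg fun k _ => sq_nonneg _).1 h0.symm k (mem_univ k))
    have : (fun g : Fin n → ℝ => dot v g ^ 4) = fun _ => 0 := by funext g; simp [dot, hv]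
    rw [this]; exact ⟨integrable_const _, by simp [← h0]⟩
  set c : ℝ := (√(sq2 v))⁻¹ with hc
  have hc0 : 0 < c := inv_pos.2 (sqrt_pos.2 h0)
  have hd : ∀ g, dot (fun k => c * v k) g = c * dot v g := fun g => by
    simp [dot, Finset.mul_sum, mul_assoc]
  have h4 : ∀ t : ℝ, t ^ 4 ≤ 24 * (2 * cosh t) := by
    intro t
    have h := Real.pow_div_factorial_le_exp (x := |t|) (abs_nonneg t) 4
    have e : |t| ^ 4 = t ^ 4 := by
      rw [show (4:ℕ) = 2 * 2 from rfl, pow_mul, pow_mul, sq_abs]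
    have h2 : exp |t| ≤ 2 * cosh t := by
      rw [cosh_eq]; rcases abs_choice t with h | h <;> rw [h] <;> linarith [exp_pos t, exp_pos (-t)]
    norm_num [Nat.factorial, e] at h
    linarith
  have hb : ∀ g, ‖dot v g ^ 4‖ ≤ 48 / c ^ 4 * cosh (dot (fun k => c * v k) g) := by
    intro g
    have h := h4 (c * dot v g)
    rw [hd, norm_eq_abs, abs_of_nonneg (Even.pow_nonneg ⟨2, rfl⟩ _), div_mul_eq_mul_div,
      le_div_iff₀ (pow_pos hc0 4)]
    rw [mul_pow] at h; linarith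
  have ic := (integrable_cosh_dot fun k => c * v k).const_mul (48 / c ^ 4)
  have hcont : Continuous fun g : Fin n → ℝ => dot v g ^ 4 :=
    (continuous_finsetSum _ fun k _ => (continuous_const.mul (continuous_apply k))).pow 4
  have hi : Integrable (fun g => dot v g ^ 4) (gaussVec (Fin n)) :=
    ic.mono' hcont.aestronglyMeasurable (Filter.Eventually.of_forall hb)
  refine ⟨hi, ?_⟩
  refine (integral_mono hi ic fun g => (le_abs_self _).trans (hb g)).trans ?_
  rw [integral_const_mul, integral_cosh_dot]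
  have e1 : sq2 (fun k => c * v k) = 1 := by
    simp only [sq2, mul_pow, ← Finset.mul_sum]
    rw [hc, inv_pow, sq_sqrt hsq]
    exact inv_mul_cancel₀ h0.ne'
  have e2 : c ^ 4 = (sq2 v ^ 2)⁻¹ := by
    rw [hc, inv_pow, show (4:ℕ) = 2 * 2 from rfl, pow_mul, sq_sqrt hsq]
  rw [e1, e2, div_inv_eq_mul]
  have h3 : exp (1 / 2) ≤ 2 := by
    have h := exp_one_lt_d9
    have : exp (1 / 2) ^ 2 = exp 1 := by rw [← exp_nat_mul]; norm_num
    nlinarith [exp_pos (1 / 2 : ℝ)]
  nlinarith [sq_nonneg (sq2 v)]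

lemma integral_cosh_nonneg_le (hε : 0 < ε) {Y : (Fin n → ℝ) → ℝ}
    (hY : Integrable (fun g => Y g ^ 2) (gaussVec (Fin n)))
    (hM : ∫ g, Y g ^ 2 ∂gaussVec (Fin n) ≤ M) (v : Fin n → ℝ)
    (hm : AEStronglyMeasurable Y (gaussVec (Fin n))) :
    Integrable (fun g => dot v g ^ 2 * Y g) (gaussVec (Fin n)) ∧
    ∫ g, dot v g ^ 2 * Y g ∂gaussVec (Fin n) ≤ sq2 v * (48 * ε + M / (2 * ε)) := by
  obtain ⟨i4, h4⟩ := integral_dot_pow_four v
  have hsq : 0 ≤ sq2 v := Finset.sum_nonneg fun k _ => sq_nonneg _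
  rcases hsq.eq_or_lt with h0 | h0
  · have hv : ∀ k, v k = 0 := fun k => pow_eq_zero_iff two_ne_zero |>.1
      ((Finset.sum_eq_zero_iff_of_nonneg fun k _ => sq_nonneg _).1 h0.symm k (mem_univ k))
    have : (fun g => dot v g ^ 2 * Y g) = fun _ => (0:ℝ) := by funext g; simp [dot, hv]
    rw [this]; exact ⟨integrable_const _, by simp [← h0]⟩
  set θ := ε / sq2 v with hθ
  have hθ0 : 0 < θ := div_pos hε h0
  have hb : ∀ g, ‖dot v g ^ 2 * Y g‖ ≤ θ / 2 * dot v g ^ 4 + 1 / (2 * θ) * Y g ^ 2 := by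
    intro g
    have e : θ / 2 * dot v g ^ 4 + 1 / (2 * θ) * Y g ^ 2
        = ((θ * dot v g ^ 2) ^ 2 + |Y g| ^ 2) / (2 * θ) := by
      rw [sq_abs]; field_simp
    rw [norm_eq_abs, abs_mul, abs_of_nonneg (sq_nonneg _), e, le_div_iff₀ (by linarith)]
    nlinarith [sq_nonneg (θ * dot v g ^ 2 - |Y g|)]
  have ib := (i4.const_mul (θ / 2)).fun_add (hY.const_mul (1 / (2 * θ)))
  have hcont : Continuous fun g : Fin n → ℝ => dot v g ^ 2 :=
    (continuous_finsetSum _ fun k _ => (continuous_const.mul (continuous_apply k))).pow 2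
  have hi : Integrable (fun g => dot v g ^ 2 * Y g) (gaussVec (Fin n)) :=
    ib.mono' (hcont.aestronglyMeasurable.mul hm) (Filter.Eventually.of_forall hb)
  refine ⟨hi, (integral_mono hi ib fun g => (le_abs_self _).trans (hb g)).trans ?_⟩
  rw [integral_add (i4.const_mul _) (hY.const_mul _), integral_const_mul, integral_const_mul]
  have a1 := mul_le_mul_of_nonneg_left h4 (by linarith : 0 ≤ θ / 2)
  have a2 := mul_le_mul_of_nonneg_left hM (by positivity : 0 ≤ 1 / (2 * θ))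
  refine (add_le_add a1 a2).trans (le_of_eq ?_)
  rw [hθ]; field_simp; ring

lemma aesm_Yc : AEStronglyMeasurable (Yc ν a F) (gaussVec (Fin n)) := by
  unfold Yc
  exact (((integrable_Kf ν a (fun ρ σ => F ρ σ - Dg ν F)).abs).div_const _).aestronglyMeasurable

section
variable (hν : ∀ ρ, 0 ≤ ν ρ) (h1 : ∑ ρ, ν ρ = 1) (hb : a ^ 2 * n ≤ b)
  (hN : a ^ 2 * Nr = b) (hNr : 0 < Nr) (hb0 : 0 ≤ b) (hε : 0 < ε) (hε1 : ε ≤ 1) (hl : 0 ≤ lam)
  (hs0 : 0 ≤ s) (hs1 : s ≤ 1) (hP0 : 0 ≤ P0) (hκ : 1 ≤ κ)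
  (hY : Integrable (fun g => Yc ν a F g ^ 2) (gaussVec (Fin n)))
  (hM : ∫ g, Yc ν a F g ^ 2 ∂gaussVec (Fin n) ≤ M) (hF : 0 < Dg ν F)
include hν h1 hb hN hNr hb0 hε hε1 hl hs0 hs1 hP0 hκ hY hM hF

theorem crit_lower (ψ : (Fin n → ℝ) → ℝ) (hψ0 : ∀ g, 0 ≤ ψ g)
    (hi : Integrable (fun g => ψ g * ∑ j, (uf ν a j g / Zc ν a g) ^ 2) (gaussVec (Fin n)))
    (hψ : ∀ g, P0 ≤ ψ g * (κ + κ * (Yc ν a F g / Zc ν a g ^ 2)
      + lam * exp s * Kf ν a (fun ρ σ => exp (s * |overlap ρ σ|)) g / (Dc ν s * Zc ν a g ^ 2))) :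
    P0 * (a ^ 2 * Wc ν * (2 - κ * (1 + Kc b * (ε + Wc ν / Nr ^ 2 / ε) + 48 * ε + M / (2 * ε))
        - Kc b * lam))
      ≤ ∫ g, ψ g * ∑ j, (uf ν a j g / Zc ν a g) ^ 2 ∂gaussVec (Fin n) := by
  set E : Conf n → Conf n → ℝ := fun ρ σ => exp (s * |overlap ρ σ|) with hE
  set m := exp (a ^ 2 * n / 2) with hm
  have hm1 : 1 ≤ m := one_le_exp (by positivity)
  set v : Fin n → Fin n → ℝ := fun j k => a / m * Cm ν j k with hv
  set c0 := lam * exp s / Dc ν s with hc0
  have hD := Dc_pos ν hν h1 hs0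
  have hc00 : 0 ≤ c0 := by positivity
  have hpt : ∀ g, P0 * (∑ j, 2 * (dot (v j) g * uf ν a j g)
      - ((κ * ∑ j, dot (v j) g ^ 2 * Kf ν a (fun _ _ => 1) g
        + κ * ∑ j, dot (v j) g ^ 2 * Yc ν a F g) + c0 * ∑ j, dot (v j) g ^ 2 * Kf ν a E g))
      ≤ ψ g * ∑ j, (uf ν a j g / Zc ν a g) ^ 2 := by
    intro g
    simp only [Finset.mul_sum, ← Finset.sum_add_distrib, ← Finset.sum_sub_distrib]
    refine Finset.sum_le_sum fun j _ => ?_
    have hZ : 0 < Zc ν a g := lt_of_lt_of_le one_pos (one_le_Zc ν a hν h1 g)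
    have hK : 0 ≤ Kf ν a E g := Kf_nonneg ν a hν (fun _ _ => (exp_pos _).le) g
    have hY0 : 0 ≤ Yc ν a F g := div_nonneg (abs_nonneg _) hF.le
    rw [← Zc_sq]
    have hg := hψ g
    rw [show lam * exp s * Kf ν a E g / (Dc ν s * Zc ν a g ^ 2)
      = c0 * (Kf ν a E g / Zc ν a g ^ 2) by rw [hc0]; ring] at hg
    generalize dot (v j) g = w, uf ν a j g = u, Zc ν a g = Z, Kf ν a E g = K, Yc ν a F g = Y,
      ψ g = p at *
    set d := κ + κ * (Y / Z ^ 2) + c0 * (K / Z ^ 2) with hd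
    have hd0 : 0 < d := by
      have : 0 ≤ κ * (Y / Z ^ 2) := mul_nonneg (by linarith) (div_nonneg hY0 (sq_nonneg _))
      have : 0 ≤ c0 * (K / Z ^ 2) := mul_nonneg hc00 (div_nonneg hK (sq_nonneg _))
      linarith
    have e2 : κ * (w ^ 2 * Z ^ 2) + κ * (w ^ 2 * Y) + c0 * (w ^ 2 * K) = w ^ 2 * (Z ^ 2 * d) := by
      rw [hd]; field_simp
    have key : 2 * (w * u) - w ^ 2 * (Z ^ 2 * d) ≤ (u / Z) ^ 2 / d := by
      rw [div_pow, div_div, le_div_iff₀ (by positivity)]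
      nlinarith [sq_nonneg (u - w * (Z ^ 2 * d))]
    calc P0 * (2 * (w * u) - (κ * (w ^ 2 * Z ^ 2) + κ * (w ^ 2 * Y) + c0 * (w ^ 2 * K)))
        ≤ P0 * ((u / Z) ^ 2 / d) := by rw [e2]; exact mul_le_mul_of_nonneg_left key hP0
      _ ≤ (p * d) * ((u / Z) ^ 2 / d) := mul_le_mul_of_nonneg_right hg (by positivity)
      _ = p * (u / Z) ^ 2 := by field_simp
  have iA : ∀ j, Integrable (fun g => 2 * (dot (v j) g * uf ν a j g)) (gaussVec (Fin n)) := by
    intro j
    simp only [uf, Finset.mul_sum]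
    refine integrable_finsetSum _ fun ρ _ => ?_
    refine ((integrable_lin_sinh (cv a ρ) (v j)).const_mul (2 * (ν ρ * spin (ρ j)))).congr
      (Filter.Eventually.of_forall fun g => by ring)
  have iB : ∀ (G : Conf n → Conf n → ℝ) j,
      Integrable (fun g => dot (v j) g ^ 2 * Kf ν a G g) (gaussVec (Fin n)) := by
    intro G j
    simp only [Kf, Finset.mul_sum]
    refine integrable_finsetSum _ fun ρ _ => integrable_finsetSum _ fun σ _ => ?_
    exact ((integrable_quad_cc (cv a ρ) (cv a σ) (v j)).const_mul (ν ρ * ν σ * G ρ σ)).congr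
      (Filter.Eventually.of_forall fun g => by ring)
  have iC := fun j => integral_cosh_nonneg_le hε hY hM (v j) aesm_Yc
  have i1 := integrable_finsetSum univ fun j _ => iA j
  have i2 := (integrable_finsetSum univ fun j _ => iB (fun _ _ => 1) j).const_mul κ
  have i2' := (integrable_finsetSum univ fun j _ => (iC j).1).const_mul κ
  have i3 := (integrable_finsetSum univ fun j _ => iB E j).const_mul c0
  have hmono := integral_mono ((i1.sub ((i2.fun_add i2').fun_add i3)).const_mul P0) hi hpt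
  simp only [Pi.sub_apply] at hmono
  rw [integral_const_mul, integral_sub i1 ((i2.fun_add i2').fun_add i3),
    integral_add (i2.fun_add i2') i3, integral_add i2 i2', integral_const_mul, integral_const_mul,
    integral_const_mul] at hmono
  have E1 : ∫ g, ∑ j, 2 * (dot (v j) g * uf ν a j g) ∂gaussVec (Fin n) = 2 * (a ^ 2 * Wc ν) := by
    rw [integral_finsetSum _ fun j _ => iA j, ← sum_Cm_sq, Finset.mul_sum, Finset.mul_sum]
    refine Finset.sum_congr rfl fun j _ => ?_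
    have : (fun g => 2 * (dot (v j) g * uf ν a j g)) = fun g => ∑ ρ,
        2 * (ν ρ * spin (ρ j)) * (dot (v j) g * sinh (dot (cv a ρ) g)) := by
      funext g; simp only [uf, Finset.mul_sum]; exact Finset.sum_congr rfl fun ρ _ => by ring
    rw [this, integral_finsetSum _ fun ρ _ => (integrable_lin_sinh _ _).const_mul _]
    simp only [integral_const_mul, integral_lin_sinh, sq2_cv, ← hm]
    simp only [dot, hv, cv, Finset.sum_mul, Finset.mul_sum]
    rw [Finset.sum_comm]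
    refine Finset.sum_congr rfl fun k _ => ?_
    have e : ∀ ρ, 2 * (ν ρ * spin (ρ j)) * (a / m * Cm ν j k * (a * spin (ρ k)) * m)
        = 2 * (a ^ 2 * Cm ν j k) * (ν ρ * spin (ρ j) * spin (ρ k)) := by
      intro ρ; field_simp
    simp only [e, ← Finset.mul_sum]
    simp only [Cm]; ring
  rw [E1] at hmono
  have hW := Wc_nonneg ν
  have T1 := quad_one (v := v) hν h1 hb hN hNr hb0 hε hl hs0 hs1 hP0 rfl
  have T2 := quad_F (v := v) hν h1 hb hN hNr hb0 hε hl hs0 hs1 hP0 rfl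
  have hM0 : 0 ≤ M := le_trans (integral_nonneg fun g => sq_nonneg _) hM
  have T3 : ∫ g, ∑ j, dot (v j) g ^ 2 * Yc ν a F g ∂gaussVec (Fin n)
      ≤ a ^ 2 * Wc ν * (48 * ε + M / (2 * ε)) := by
    rw [integral_finsetSum _ fun j _ => (iC j).1]
    refine (Finset.sum_le_sum fun j _ => (iC j).2).trans ?_
    rw [← Finset.sum_mul]
    refine mul_le_mul_of_nonneg_right ?_ (by positivity)
    have e : ∑ j, sq2 (v j) = a ^ 2 * Wc ν / m ^ 2 := by
      simp only [sq2, hv, mul_pow, div_pow, ← Finset.mul_sum, sum_Cm_sq]; ring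
    rw [e]
    exact div_le_self (by positivity) (one_le_pow₀ hm1)
  refine le_trans ?_ hmono
  refine mul_le_mul_of_nonneg_left ?_ hP0
  obtain ⟨k1, k2, k3, k4, k5, k6⟩ := consts hb0
  have hκ0 : (0:ℝ) ≤ κ := le_trans zero_le_one hκ
  set X := Wc ν / Nr ^ 2 with hX
  have hX0 : 0 ≤ X := by positivity
  have hX1 : X ≤ ε + X / ε := by
    have : X ≤ X / ε := by rw [le_div_iff₀ hε]; exact mul_le_of_le_one_right hX0 hε1
    linarith
  have a1 : (b ^ 2 * exp (b ^ 2 / 2) + 2 * exp b * b) * (ε + X / ε) + exp (b ^ 2 / 2) * b ^ 2 * X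
      ≤ Kc b * (ε + X / ε) := by
    have h2 : exp (b ^ 2 / 2) * b ^ 2 * X ≤ Kc b / 10 * (ε + X / ε) := by
      refine mul_le_mul ?_ hX1 hX0 (by linarith)
      have : 0 ≤ exp b * b := by positivity
      linarith
    have h3 := mul_le_mul_of_nonneg_right k2 (le_trans hX0 hX1)
    have : 0 ≤ Kc b * (ε + X / ε) := mul_nonneg (by linarith) (le_trans hX0 hX1)
    linarith
  have hW' : 0 ≤ a ^ 2 * Wc ν := mul_nonneg (sq_nonneg a) hW
  have t1 := mul_le_mul_of_nonneg_left (T1.trans (mul_le_mul_of_nonneg_left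
    (show _ ≤ 1 + Kc b * (ε + X / ε) by linarith) hW')) hκ0
  have t3 := mul_le_mul_of_nonneg_left T3 hκ0
  have t2 : lam * (3 * (exp (b ^ 2 / 2) + 4 * exp b * b)) ≤ Kc b * lam := by
    rw [mul_comm (Kc b)]; exact mul_le_mul_of_nonneg_left (by linarith) hl
  have t2' := T2.trans (mul_le_mul_of_nonneg_left t2 hW')
  linarith

theorem crit_upper (φ : (Fin n → ℝ) → ℝ) (hi : Integrable φ (gaussVec (Fin n)))
    (hφ : ∀ g, φ g ≤ P0 * ((κ + κ * Yc ν a F g + lam * exp s * Zc ν a g ^ 2)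
      * Kf ν a (fun ρ σ => overlap ρ σ ^ 2) g / Zc ν a g ^ 2)) :
    ∫ g, φ g ∂gaussVec (Fin n)
      ≤ P0 * (κ * (Wc ν * (1 + Kc b * (ε + lam + Wc ν / Nr ^ 2 / ε))
          + Kc b * (a ^ 2) ^ 2 * R4 ν)
        + κ * (Wc ν * ((ε * exp (8 * b) + M / ε) / 2))) := by
  set r2 : Conf n → Conf n → ℝ := fun ρ σ => overlap ρ σ ^ 2 with hr2
  set R := fun g => (1 + lam * exp s * Zc ν a g ^ 2) * Kf ν a r2 g / Zc ν a g ^ 2 with hR
  set Q := fun g => ((∑ ρ, ∑ σ, ν ρ * ν σ * overlap ρ σ ^ 2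
      * (ε * (cosh (dot (cv a ρ) g) * cosh (dot (cv a σ) g)) ^ 2))
        + Wc ν / ε * Yc ν a F g ^ 2) / 2 with hQ
  have hκ0 : (0:ℝ) ≤ κ := le_trans zero_le_one hκ
  have hK : ∀ g, 0 ≤ Kf ν a r2 g := fun g => Kf_nonneg ν a hν (fun _ _ => sq_nonneg _) g
  have hY0 : ∀ g, 0 ≤ Yc ν a F g := fun g => div_nonneg (abs_nonneg _) hF.le
  have hYK : ∀ g, Yc ν a F g * (Kf ν a r2 g / Zc ν a g ^ 2) ≤ Q g := by
    intro g
    refine (mul_le_mul_of_nonneg_left (div_le_self (hK g) (one_le_pow₀ (one_le_Zc ν a hν h1 g)))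
      (hY0 g)).trans ?_
    rw [hQ, le_div_iff₀ (two_pos : (0:ℝ) < 2)]
    simp only [Kf, Wc, Finset.mul_sum, Finset.sum_mul, Finset.sum_div,
      ← Finset.sum_add_distrib]
    refine Finset.sum_le_sum fun ρ _ => Finset.sum_le_sum fun σ _ => ?_
    set C := cosh (dot (cv a ρ) g) * cosh (dot (cv a σ) g)
    set Y := Yc ν a F g
    have key : 2 * (Y * C) ≤ ε * C ^ 2 + Y ^ 2 / ε := by
      rw [← mul_le_mul_iff_left₀ hε, add_mul, div_mul_cancel₀ _ hε.ne']
      nlinarith [sq_nonneg (ε * C - Y)]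
    have := mul_le_mul_of_nonneg_left key
      (mul_nonneg (mul_nonneg (hν ρ) (hν σ)) (sq_nonneg (overlap ρ σ)))
    simp only [hr2]
    have e : ν ρ * ν σ * overlap ρ σ ^ 2 / ε * Y ^ 2
        = ν ρ * ν σ * overlap ρ σ ^ 2 * (Y ^ 2 / ε) := by ring
    linarith
  have hpt : ∀ g, φ g ≤ P0 * (κ * R g + κ * Q g) := by
    intro g
    refine (hφ g).trans (mul_le_mul_of_nonneg_left ?_ hP0)
    have h2 := mul_le_mul_of_nonneg_left (hYK g) hκ0
    have hq : 0 ≤ Kf ν a r2 g / Zc ν a g ^ 2 := div_nonneg (hK g) (sq_nonneg _)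
    have h3 : 0 ≤ (κ - 1) * (lam * exp s * Zc ν a g ^ 2 * (Kf ν a r2 g / Zc ν a g ^ 2)) :=
      mul_nonneg (by linarith) (mul_nonneg
        (mul_nonneg (mul_nonneg hl (exp_pos s).le) (sq_nonneg _)) hq)
    simp only [hR]
    rw [mul_div_assoc, mul_div_assoc]
    linarith
  have iS : Integrable (fun g => ∑ ρ, ∑ σ, ν ρ * ν σ * overlap ρ σ ^ 2
      * (ε * (cosh (dot (cv a ρ) g) * cosh (dot (cv a σ) g)) ^ 2)) (gaussVec (Fin n)) :=
    integrable_finsetSum _ fun ρ _ => integrable_finsetSum _ fun σ _ =>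
      ((integrable_cc_sq _ _).const_mul ε).const_mul _
  have iQ : Integrable Q (gaussVec (Fin n)) := (iS.fun_add (hY.const_mul _)).div_const 2
  have hRc : Continuous R := by
    have hK' : Continuous fun g => Kf ν a r2 g := by unfold Kf cv dot; fun_prop
    have hZ' : Continuous fun g => Zc ν a g := by unfold Zc cv dot; fun_prop
    refine (((continuous_const.add (continuous_const.mul (hZ'.pow 2))).mul hK').div (hZ'.pow 2)
      fun g => ?_)
    exact pow_ne_zero 2 (ne_of_gt (lt_of_lt_of_le one_pos (one_le_Zc ν a hν h1 g)))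
  have hR0 : ∀ g, ‖R g‖ ≤ (lam * exp s + 1) * Kf ν a r2 g := by
    intro g
    have hZ := one_le_Zc ν a hν h1 g
    rw [norm_eq_abs, abs_of_nonneg (by have := hK g; simp only [hR]; positivity)]
    have e : R g = (lam * exp s + 1 / Zc ν a g ^ 2) * Kf ν a r2 g := by
      simp only [hR]; field_simp; ring
    rw [e]
    refine mul_le_mul_of_nonneg_right ?_ (hK g)
    have : 1 / Zc ν a g ^ 2 ≤ 1 := div_le_one_of_le₀ (one_le_pow₀ hZ) (by positivity)
    linarith
  have iR : Integrable R (gaussVec (Fin n)) := ((integrable_Kf ν a r2).const_mul _).mono'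
    hRc.aestronglyMeasurable (Filter.Eventually.of_forall hR0)
  have hmono := integral_mono hi (((iR.const_mul κ).fun_add (iQ.const_mul κ)).const_mul P0) hpt
  rw [integral_const_mul, integral_add (iR.const_mul κ) (iQ.const_mul κ), integral_const_mul,
    integral_const_mul] at hmono
  have hU := cavity_upper (s := s) (lam := lam) (P0 := 1) hν h1 hb hN hNr hb0 hε hl hs0 hs1
    zero_le_one R iR (fun g => by rw [one_mul])
  rw [one_mul] at hU
  have hS := sq_term (P0 := P0) hν h1 hb hN hNr hb0 hε hl hs0 hs1 hP0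
  have hW := Wc_nonneg ν
  have hQle : ∫ g, Q g ∂gaussVec (Fin n) ≤ Wc ν * ((ε * exp (8 * b) + M / ε) / 2) := by
    simp only [hQ]
    rw [integral_div, integral_add iS (hY.const_mul _), integral_const_mul,
      ← mul_div_assoc (Wc ν)]
    have := mul_le_mul_of_nonneg_left hM (by positivity : 0 ≤ Wc ν / ε)
    have e : Wc ν / ε * M = Wc ν * (M / ε) := by ring
    linarith
  exact hmono.trans (mul_le_mul_of_nonneg_left (add_le_add
    (mul_le_mul_of_nonneg_left hU hκ0) (mul_le_mul_of_nonneg_left hQle hκ0)) hP0)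

end
end Vale.Agent.P150
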