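import Vale.Agent.P150.Crit.Step

/-! Slow mixing at the critical point `β = 1`. -/

namespace Vale.Agent.P150

open MeasureTheory ProbabilityTheory Real Finset

lemma statW_relabel {N : ℕ} (σ : Equiv.Perm (Fin N)) (β : ℝ) (g : Fin N × Fin N → ℝ) :
    statW β (relabel σ g) = statW β g := by
  have ho : ∀ x y : Conf N, overlap (x ∘ σ) (y ∘ σ) = overlap x y := fun x y =>
    Fintype.sum_equiv σ _ _ fun _ => rfl
  simp only [statW, expect_relabel, ho]

/-- The averaged cavity inequality at `β = 1`. -/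
theorem crit_mean {n : ℕ} {T U ε s : ℝ} (hn : 1 ≤ n) (hT : 1 ≤ T) (hTε : 1 / √T ≤ ε) (hε : 0 < ε)
    (hε1 : ε ≤ 1) (hεN : 1 ≤ ε * ((n + 1 : ℕ) : ℝ)) (hs : 0 < s) (hs1 : s ≤ 1)
    (hU : U = exp (ε * (s * ((n + 1 : ℕ) : ℝ))))
    (hj : exp (-(ε * (ε * (s * ((n + 1 : ℕ) : ℝ))) / 2)) ≤ 1 / ((n + 1 : ℕ) : ℝ) ^ 6) :
    ((n + 1 : ℕ) : ℝ) * ∫ g, psiC T U ε s g ∂disorder (n + 1)
      ≤ 4 * (1 + Cs) * (ε * T + 1 / ε) := by
  set Nr : ℝ := ((n + 1 : ℕ) : ℝ) with hNr
  have hNr0 : 0 < Nr := by rw [hNr]; positivity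
  have hnN : (n:ℝ) ≤ Nr := by rw [hNr]; push_cast; linarith
  have hT0 : 0 < T := by linarith
  have hU0 : 0 < U := hU ▸ exp_pos _
  set ψ := fun g : Fin (n + 1) × Fin (n + 1) → ℝ => psiC T U ε s g with hψ
  have hψc : Continuous ψ := continuous_psiC hT0 hU0 hε.le hs.le
  have hψ01 : ∀ g, 0 ≤ ψ g ∧ ψ g ≤ 1 := fun g => psiC_mem hT0 hU0 hs.le g
  set PW := fun g : Fin (n + 1) × Fin (n + 1) → ℝ =>
    cutC T U ε (Wc (cavityGibbs 1 g)) (Dc (cavityGibbs 1 g) s) * Wc (cavityGibbs 1 g) with hPW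
  set Er := Cs * (ε * T + 1 / ε) with hEr
  have inner : ∀ g : Fin (n + 1) × Fin (n + 1) → ℝ,
      (PW g - Er) / Nr ≤ ∫ h, ψ (overwrite g h) * rowSq 1 (overwrite g h) 0 ∂gaussVec (Fin n)
      ∧ ∫ h, ψ (overwrite g h) * restSq 1 (overwrite g h) ∂gaussVec (Fin n) ≤ PW g + Er := fun g =>
    crit_step hn hT hTε hε hε1 hs hs1 hU hj g
  have bound : ∀ (F : (Fin (n + 1) × Fin (n + 1) → ℝ) → ℝ) (c : ℝ), Continuous F →
      (∀ g, 0 ≤ F g ∧ F g ≤ c) → Integrable (fun g => ψ g * F g) (disorder (n + 1))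
      ∧ Continuous (fun g => ψ g * F g) ∧ ∀ g, |ψ g * F g| ≤ c := by
    intro F c hF hb
    have h : ∀ g, |ψ g * F g| ≤ c := fun g => by
      rw [abs_of_nonneg (mul_nonneg (hψ01 g).1 (hb g).1)]
      exact (mul_le_of_le_one_left (hb g).1 (hψ01 g).2).trans (hb g).2
    exact ⟨Integrable.of_bound (hψc.mul hF).aestronglyMeasurable c
      (Filter.Eventually.of_forall fun g => h g), hψc.mul hF, h⟩
  obtain ⟨iRow, cRow, bRow⟩ := bound _ Nr (continuous_rowSq 1 0)
    fun g => ⟨rowSq_nonneg 1 g 0, rowSq_le 1 g 0⟩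
  obtain ⟨iRest, cRest, bRest⟩ := bound _ ((n:ℝ) ^ 2) (continuous_restSq 1) (restSq_mem 1)
  have hD0 : ∀ g : Fin (n + 1) × Fin (n + 1) → ℝ, 0 ≤ Dc (cavityGibbs 1 g) s := fun g =>
    le_trans zero_le_one (Dc_pos _ (cavityGibbs_nonneg 1 g) (cavityGibbs_sum 1 g) hs.le)
  have hPWb : ∀ g, 0 ≤ PW g ∧ PW g ≤ T := fun g =>
    ⟨mul_nonneg (cutC_mem hT0 hU0 (Wc_nonneg _) (hD0 g)).1 (Wc_nonneg _),
      cutC_mul_le hT0 hU0 (Wc_nonneg _) (hD0 g)⟩
  have hPWc : Continuous PW := by
    refine Continuous.mul ?_ (continuous_Wc 1)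
    refine continuous_const.div ((continuous_const.add ((continuous_Wc 1).div_const T)).add
      (((continuous_Dc 1 s).div_const U).rpow_const fun g => Or.inr hε.le)) fun g => ?_
    exact (cutC_pos hT0 hU0 (Wc_nonneg _) (hD0 g)).ne'
  have iPW : Integrable PW (disorder (n + 1)) :=
    Integrable.of_bound hPWc.aestronglyMeasurable T
      (Filter.Eventually.of_forall fun g => by
        rw [norm_eq_abs, abs_of_nonneg (hPWb g).1]; exact (hPWb g).2)
  have iI : ∀ (F : (Fin (n + 1) × Fin (n + 1) → ℝ) → ℝ) (c : ℝ), Continuous F → (∀ g, |F g| ≤ c) →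
      Integrable (fun g => ∫ h, F (overwrite g h) ∂gaussVec (Fin n)) (disorder (n + 1)) := by
    intro F c hF hc
    exact (Integrable.of_bound (hF.comp continuous_overwrite).aestronglyMeasurable c
      (Filter.Eventually.of_forall fun p => hc _) :
      Integrable _ ((disorder (n + 1)).prod (gaussVec (Fin n)))).integral_prod_left
  set U1 := ∫ g, PW g ∂disorder (n + 1)
  set Eψ := ∫ g, ψ g ∂disorder (n + 1)
  set A := ∫ g, ψ g * rowSq 1 g 0 ∂disorder (n + 1) with hA
  set B := ∫ g, ψ g * restSq 1 g ∂disorder (n + 1) with hB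
  have hAle : (U1 - Er) / Nr ≤ A := by
    rw [hA, integral_split cRow bRow]
    refine le_trans (le_of_eq ?_) (integral_mono ((iPW.sub (integrable_const Er)).div_const Nr)
      (iI _ _ cRow bRow) fun g => (inner g).1)
    simp only [Pi.sub_apply]
    rw [integral_div, integral_sub iPW (integrable_const _), integral_const, probReal_univ,
      one_smul]
  have hBle : B ≤ U1 + Er := by
    rw [hB, integral_split cRest bRest]
    refine le_trans (integral_mono (iI _ _ cRest bRest) (iPW.add (integrable_const Er))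
      fun g => (inner g).2) (le_of_eq ?_)
    simp only [Pi.add_apply]
    rw [integral_add iPW (integrable_const _), integral_const, probReal_univ, one_smul]
  have iψ : Integrable ψ (disorder (n + 1)) :=
    Integrable.of_bound hψc.aestronglyMeasurable 1
      (Filter.Eventually.of_forall fun g => by
        rw [norm_eq_abs, abs_of_nonneg (hψ01 g).1]; exact (hψ01 g).2)
  have ident : (n:ℝ) * Eψ + ((n:ℝ) - 1) * A = B := by
    have h1 : ∀ i, ∫ g, ψ g * rowSq 1 g i ∂disorder (n + 1) = A := by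
      intro i
      rw [← integral_relabel (Equiv.swap (0 : Fin (n + 1)) i) (Equiv.swap_apply_self _ _)]
      simp only [hψ, psiC, statW_relabel, stat_relabel, rowSq_relabel, Equiv.swap_apply_right]
      rfl
    have h2 : ∫ g, ∑ i, ψ g * rowSq 1 g i ∂disorder (n + 1) = Nr * A := by
      rw [integral_finsetSum _ fun i _ => (bound _ Nr (continuous_rowSq 1 i)
        fun g => ⟨rowSq_nonneg 1 g i, rowSq_le 1 g i⟩).1]
      simp [h1, hNr]
    have h3 : ∫ g, ∑ i, ψ g * rowSq 1 g i ∂disorder (n + 1) = 2 * A + (B - (n:ℝ) * Eψ) := by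
      have e : (fun g => ∑ i, ψ g * rowSq 1 g i)
          = fun g => 2 * (ψ g * rowSq 1 g 0) + (ψ g * restSq 1 g - (n:ℝ) * ψ g) := by
        funext g; rw [← Finset.mul_sum, sum_rowSq]; ring
      have i2 : Integrable (fun g => ψ g * restSq 1 g - (n:ℝ) * ψ g) (disorder (n + 1)) :=
        iRest.sub (iψ.const_mul _)
      rw [e, integral_add (iRow.const_mul 2) i2, integral_sub iRest (iψ.const_mul _),
        integral_const_mul, integral_const_mul]
    rw [h2, hNr] at h3; push_cast at h3; linarith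
  have hU1 : U1 ≤ T := by
    refine (integral_mono iPW (integrable_const T) fun g => (hPWb g).2).trans (le_of_eq ?_)
    rw [integral_const, probReal_univ, one_smul]
  have hn' : (n:ℝ) = Nr - 1 := by rw [hNr]; push_cast; ring
  have hn1 : (1:ℝ) ≤ n := by exact_mod_cast hn
  have hCs : 0 ≤ Cs := by
    have := (consts (b := 1) zero_le_one).1
    have := Kd_pos 1
    have := exp_pos (8:ℝ)
    unfold Cs; linarith
  have hEr0 : 0 ≤ Er := mul_nonneg hCs (by positivity)
  have h5 := mul_le_mul_of_nonneg_left hAle (by linarith : (0:ℝ) ≤ (n:ℝ) - 1)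
  have h6 : (1 - ((n:ℝ) - 1) / Nr) * U1 ≤ (1 - ((n:ℝ) - 1) / Nr) * T := by
    refine mul_le_mul_of_nonneg_left hU1 ?_
    rw [sub_nonneg, div_le_one hNr0]; linarith
  have h7 : (1 - ((n:ℝ) - 1) / Nr) * T = 2 * (T / Nr) := by
    rw [hn']; field_simp; ring
  have h8 : T / Nr ≤ ε * T := by
    rw [div_le_iff₀ hNr0]
    calc T ≤ (ε * Nr) * T := le_mul_of_one_le_left hT0.le hεN
      _ = ε * T * Nr := by ring
  have h9 : ((n:ℝ) - 1) / Nr * Er ≤ Er :=
    mul_le_of_le_one_left hEr0 (by rw [div_le_one hNr0]; linarith)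
  have h10 : (n:ℝ) * Eψ ≤ 2 * (ε * T) + 2 * Er := by
    have e : ((n:ℝ) - 1) * ((U1 - Er) / Nr)
        = ((n:ℝ) - 1) / Nr * U1 - ((n:ℝ) - 1) / Nr * Er := by ring
    linarith
  have hEψ : 0 ≤ Eψ := integral_nonneg fun g => (hψ01 g).1
  have h11 : Nr * Eψ ≤ 2 * ((n:ℝ) * Eψ) := by
    rw [← mul_assoc]; exact mul_le_mul_of_nonneg_right (by linarith) hEψ
  have : 0 ≤ 1 / ε := by positivity
  rw [hEr] at h10
  linarith

/-- A large second overlap moment gives a slow test function. -/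
theorem test_function_sq {N : ℕ} (β : ℝ) (g : Fin N × Fin N → ℝ) {T : ℝ} (hT : 0 < T)
    (hW : T < statW β g) : ∃ f : Conf N → ℝ, expect β g f = 0 ∧ 0 < gibbsVar β g f
      ∧ dirichlet β g f ≤ 2 * N / T * gibbsVar β g f := by
  obtain ⟨y, hy⟩ : ∃ y, T < expect β g fun x => overlap y x ^ 2 := by
    by_contra h
    push Not at h
    have := (expect_mono β g h).trans (le_of_eq (expect_const β g T))
    exact absurd hW (not_lt.2 this)
  have hm : expect β g (fun x => overlap y x) = 0 :=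
    expect_odd β g fun x => by simp [overlap, neg, spin_not, Finset.sum_neg_distrib]
  have hvar : gibbsVar β g (fun x => overlap y x) = expect β g fun x => overlap y x ^ 2 := by
    simp [gibbsVar, hm]
  refine ⟨_, hm, hvar ▸ hT.trans hy, ?_⟩
  have hstep : ∀ x i, (overlap y (flip1 x i) - overlap y x) ^ 2 = 4 := by
    intro x i
    have : overlap y (flip1 x i) - overlap y x = -2 * (spin (y i) * spin (x i)) := by
      unfold overlap
      rw [← Finset.add_sum_erase univ _ (mem_univ i), ← Finset.add_sum_erase univ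
        (fun k => spin (y k) * spin (x k)) (mem_univ i), flip1_self, spin_not,
        Finset.sum_congr rfl fun k hk => by rw [flip1_ne x (Finset.ne_of_mem_erase hk)]]
      ring
    rw [this, show (-2 * (spin (y i) * spin (x i))) ^ 2
      = 4 * ((spin (y i) * spin (y i)) * (spin (x i) * spin (x i))) by ring, spin_sq, spin_sq]
    norm_num
  calc dirichlet β g (fun x => overlap y x)
      ≤ (1 / 2) * ∑ _i : Fin N, ∑ x, gibbs β g x * 4 := by
        rw [dirichlet_eq]
        refine mul_le_mul_of_nonneg_left (Finset.sum_le_sum fun i _ =>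
          Finset.sum_le_sum fun x _ => ?_) (by norm_num)
        rw [hstep]
        exact mul_le_mul_of_nonneg_right
          (mul_le_of_le_one_right (gibbs_pos β g x).le (rate_le_one β g x i)) (by norm_num)
    _ = 2 * N / T * T := by
        rw [div_mul_cancel₀ _ hT.ne']
        simp only [← Finset.sum_mul, gibbs_sum, one_mul, Finset.sum_const, Finset.card_univ,
          Fintype.card_fin, nsmul_eq_mul]
        ring
    _ ≤ _ := mul_le_mul_of_nonneg_left (by rw [hvar]; exact hy.le) (by positivity)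

/-- a slow test function bounds the gap and the mixing time -/
lemma slow_of_test {N : ℕ} (β : ℝ) (g : Fin N × Fin N → ℝ) {f : Conf N → ℝ} {R C X : ℝ}
    (hC : 0 < C) (hX : 0 < X) (hRC : R ≤ C / X / 2) (hf0 : expect β g f = 0)
    (hfv : 0 < gibbsVar β g f) (hfd : dirichlet β g f ≤ R * gibbsVar β g f) :
    spectralGap β g ≤ C / X ∧ ∀ t, 0 ≤ t → t < X / C → ∃ x, 1 / 4 < tvDist β g t x := by
  have hd : dirichlet β g f ≤ C / X / 2 * gibbsVar β g f :=
    hfd.trans (mul_le_mul_of_nonneg_right hRC hfv.le)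
  refine ⟨?_, fun t ht0 ht => tv_lower β g hf0 hfv hd ht0 ?_⟩
  · unfold spectralGap
    have hbd : BddBelow {r | ∃ h : Conf N → ℝ, 0 < gibbsVar β g h ∧
        r = dirichlet β g h / gibbsVar β g h} := by
      refine ⟨0, ?_⟩
      rintro r ⟨h, hh, rfl⟩
      exact div_nonneg (dirichlet_nonneg β g h) hh.le
    refine le_trans (csInf_le hbd ⟨f, hfv, rfl⟩) ?_
    rw [div_le_iff₀ hfv]
    refine hd.trans (mul_le_mul_of_nonneg_right ?_ hfv.le)
    linarith [div_pos hC hX]
  · have h1 := mul_lt_mul_of_pos_left ht (by positivity : 0 < C / X / 2)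
    rw [show C / X / 2 * (X / C) = 1 / 2 by field_simp] at h1
    linarith [log_two_gt_d9]

/-- Slow mixing at `β = 1`. -/
theorem slow_mixing_crit : ∃ C : ℝ, 0 < C ∧ ∀ N : ℕ, 2 ≤ N →
    (disorder N).real {g | ¬ (spectralGap 1 g ≤ C / (N:ℝ) ^ (1 / 6 : ℝ) ∧
      ∀ t, 0 ≤ t → t < (N:ℝ) ^ (1 / 6 : ℝ) / C → ∃ x, 1 / 4 < tvDist 1 g t x)}
      ≤ C / (N:ℝ) ^ (1 / 30 : ℝ) := by
  set K0 := 4 * (1 + Cs) with hK0
  have hK0' : 0 ≤ K0 := by
    have := (consts (b := 1) zero_le_one).1
    have := Kd_pos 1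
    have := exp_pos (8:ℝ)
    rw [hK0]; unfold Cs; linarith
  set C : ℝ := 41472000 + 6 * K0 with hC
  have hC0 : 0 < C := by linarith
  refine ⟨C, hC0, fun N hN2 => ?_⟩
  have hNpos : (0:ℝ) < N := by exact_mod_cast (by omega : 0 < N)
  set r := (N:ℝ) ^ (1 / 30 : ℝ) with hr
  have hr0 : 0 < r := rpow_pos_of_pos hNpos _
  have h30 : r ^ 30 = (N:ℝ) := by
    rw [hr, ← rpow_natCast, ← rpow_mul hNpos.le]; norm_num
  have h5 : (N:ℝ) ^ (1 / 6 : ℝ) = r ^ 5 := by
    rw [hr, ← rpow_natCast, ← rpow_mul hNpos.le]; norm_num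
  rw [h5]
  set Bad := {g : Fin N × Fin N → ℝ | ¬ (spectralGap 1 g ≤ C / r ^ 5 ∧
      ∀ t, 0 ≤ t → t < r ^ 5 / C → ∃ x, 1 / 4 < tvDist 1 g t x)} with hBad
  by_cases hsmall : r ≤ 2
  · exact measureReal_le_one.trans ((one_le_div hr0).2 (by linarith))
  push Not at hsmall
  obtain ⟨n, rfl⟩ : ∃ n, N = n + 1 := ⟨N - 1, by omega⟩
  set Nr : ℝ := ((n + 1 : ℕ) : ℝ) with hNr
  set ε := 1 / r ^ 6 with hεd
  have hε : 0 < ε := by positivity
  have hε1 : ε ≤ 1 := by rw [hεd, div_le_one (by positivity)]; exact one_le_pow₀ (by linarith)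
  have hlog : 0 < log Nr := log_pos (by rw [hNr]; exact_mod_cast (by omega : 1 < n + 1))
  set s := 12 * log Nr / ε ^ 2 / Nr with hs
  have hs0 : 0 < s := by positivity
  have hsN : s * Nr = 12 * log Nr / ε ^ 2 := div_mul_cancel₀ _ hNpos.ne'
  have hlr : log Nr = 30 * log r := by rw [← h30, log_pow]; norm_num
  have hlr0 : 0 < log r := log_pos (by linarith)
  have hse : s = 360 * log r / r ^ 18 := by
    rw [hs, hεd, hlr, ← h30]; field_simp; ring
  have hs1 : s ≤ 1 := by
    rw [hse, div_le_one (by positivity)]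
    have h1 : log r ≤ r := (log_le_sub_one_of_pos hr0).trans (by linarith)
    calc 360 * log r ≤ 2 ^ 17 * r := by linarith
      _ ≤ r ^ 17 * r := by gcongr
      _ = r ^ 18 := by ring
  set T := r ^ 35 with hTd
  have hT : 1 ≤ T := one_le_pow₀ (by linarith)
  have hT0 : 0 < T := by positivity
  have hTε : 1 / √T ≤ ε := by
    rw [hεd]
    refine one_div_le_one_div_of_le (by positivity) (le_sqrt_of_sq_le ?_)
    rw [hTd, ← pow_mul]; exact pow_le_pow_right₀ (by linarith) (by norm_num)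
  have hεN : 1 ≤ ε * Nr := by
    rw [hεd, ← h30, one_div_mul_eq_div, one_le_div (by positivity)]
    exact pow_le_pow_right₀ (by linarith) (by norm_num)
  have hj : exp (-(ε * (ε * (s * Nr)) / 2)) ≤ 1 / Nr ^ 6 := by
    rw [hsN, show -(ε * (ε * (12 * log Nr / ε ^ 2)) / 2) = -(((6:ℕ):ℝ) * log Nr) by
      push_cast; field_simp; ring, exp_neg, exp_nat_mul, exp_log hNpos, one_div]
  set U := exp (ε * (s * Nr)) with hU
  have hU0 : 0 < U := exp_pos _
  have hmean := crit_mean (n := n) (T := T) (U := U) (ε := ε) (s := s) (by omega) hT hTε hε hε1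
    hεN hs0 hs1 rfl hj
  have hU6 : (6:ℝ) ≤ U := by
    rw [hU, hsN]
    calc (6:ℝ) ≤ Nr ^ 4 := by
          have : (2:ℝ) ≤ Nr := by rw [hNr]; exact_mod_cast hN2
          linarith [pow_le_pow_left₀ (by norm_num) this 4]
      _ = exp (4 * log Nr) := by
          rw [show (4:ℝ) = ((4:ℕ):ℝ) by norm_num, exp_nat_mul, exp_log hNpos]
      _ ≤ _ := exp_le_exp.mpr (by
          rw [show ε * (12 * log Nr / ε ^ 2) = 12 * log Nr / ε by field_simp]
          exact le_trans (by linarith) (le_div_self (by positivity) hε hε1))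
  have hsub : Bad ⊆ {g | 1 / 3 ≤ psiC T U ε s g} := by
    intro g hg
    by_contra hc
    simp only [Set.mem_setOf_eq, not_le] at hc
    apply hg
    by_cases hW : T < statW 1 g
    · obtain ⟨f, hf0, hfv, hfd⟩ := test_function_sq 1 g hT0 hW
      refine slow_of_test 1 g hC0 (by positivity) ?_ hf0 hfv hfd
      rw [← hNr, hTd, ← h30, le_div_iff₀ two_pos, le_div_iff₀ (by positivity),
        show 2 * r ^ 30 / r ^ 35 * 2 * r ^ 5 = 4 by field_simp; ring]
      linarith
    · push Not at hW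
      have hDU : U < stat 1 g s := by
        by_contra h
        push Not at h
        have hD := lt_of_lt_of_le one_pos (stat_ge_one 1 hs0.le g)
        have h1 : (stat 1 g s / U) ^ ε ≤ 1 :=
          rpow_le_one (div_pos hD hU0).le (div_le_one_of_le₀ h hU0.le) hε.le
        have h2 : statW 1 g / T ≤ 1 := (div_le_one hT0).2 hW
        rw [psiC, cutC, div_lt_iff₀ (cutC_pos hT0 hU0 (statW_nonneg 1 g) hD.le)] at hc
        linarith
      obtain ⟨f, hf0, hfv, hfd⟩ := test_function 1 g hs0.le hs1 (lt_of_le_of_lt hU6 hDU)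
      refine slow_of_test 1 g hC0 (by positivity) ?_ hf0 hfv hfd
      rw [← hNr, le_div_iff₀ two_pos, le_div_iff₀ (by positivity)]
      have hl : log r ^ 2 ≤ 4 * r := by
        have h1 : log r ≤ 2 * √r := by
          have := log_le_sub_one_of_pos (sqrt_pos.mpr hr0)
          rw [log_sqrt hr0.le] at this; linarith
        calc log r ^ 2 ≤ (2 * √r) ^ 2 := pow_le_pow_left₀ hlr0.le h1 2
          _ = 4 * r := by rw [mul_pow, sq_sqrt hr0.le]; norm_num
      calc 40 * Nr * s ^ 2 * 2 * r ^ 5 = 10368000 * (log r ^ 2 / r) := by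
            rw [hse, ← h30]; field_simp; ring
        _ ≤ 10368000 * 4 := by
            refine mul_le_mul_of_nonneg_left ?_ (by norm_num)
            rw [div_le_iff₀ hr0]; linarith
        _ ≤ C := by linarith
  have hψ01 := fun g : Fin (n + 1) × Fin (n + 1) → ℝ =>
    psiC_mem (lam := ε) hT0 hU0 hs0.le g
  have hψc := continuous_psiC (N := n + 1) (lam := ε) hT0 hU0 hε.le hs0.le
  have hmk := mul_meas_ge_le_integral_of_nonneg (μ := disorder (n + 1))
    (f := fun g => psiC T U ε s g) (Filter.Eventually.of_forall fun g => (hψ01 g).1)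
    (Integrable.of_bound hψc.aestronglyMeasurable 1 (Filter.Eventually.of_forall fun g => by
      rw [norm_eq_abs, abs_of_nonneg (hψ01 g).1]; exact (hψ01 g).2))
    (1 / 3)
  have hmono := measureReal_mono (μ := disorder (n + 1)) hsub
  have hET : ε * T + 1 / ε ≤ 2 * r ^ 29 := by
    rw [hεd, hTd, one_div_one_div, one_div_mul_eq_div,
      show r ^ 35 / r ^ 6 = r ^ 29 by field_simp]
    have : r ^ 6 ≤ r ^ 29 := pow_le_pow_right₀ (by linarith) (by norm_num)
    linarith
  have hI : (∫ g, psiC T U ε s g ∂disorder (n + 1)) * r ≤ 2 * K0 := by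
    refine le_of_mul_le_mul_left (a := r ^ 29) ?_ (by positivity)
    calc r ^ 29 * ((∫ g, psiC T U ε s g ∂disorder (n + 1)) * r)
        = Nr * ∫ g, psiC T U ε s g ∂disorder (n + 1) := by rw [← h30]; ring
      _ ≤ K0 * (2 * r ^ 29) := hmean.trans (mul_le_mul_of_nonneg_left hET hK0')
      _ = _ := by ring
  rw [le_div_iff₀ hr0]
  calc (disorder (n + 1)).real Bad * r
      ≤ (3 * ∫ g, psiC T U ε s g ∂disorder (n + 1)) * r :=
        mul_le_mul_of_nonneg_right (by linarith) hr0.le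
    _ ≤ C := by linarith

end Vale.Agent.P150
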