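import Vale.Agent.P150.Main

/-!
A second moment bound for the centred change of a statistic of two replicas when one site is
added: four cavity factors decouple up to squared overlaps.
-/

namespace Vale.Agent.P150

open MeasureTheory ProbabilityTheory Real Finset

section vectors
variable {ι : Type*} [Fintype ι]

lemma cc4_eq (c d e f g : ι → ℝ) :
    cosh (dot c g) * cosh (dot d g) * (cosh (dot e g) * cosh (dot f g))
      = (cosh (dot (c + d) g) * cosh (dot (e + f) g) + cosh (dot (c + d) g) * cosh (dot (e - f) g)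
        + cosh (dot (c - d) g) * cosh (dot (e + f) g)
        + cosh (dot (c - d) g) * cosh (dot (e - f) g)) / 4 := by
  rw [cc_eq c d g, cc_eq e f g]; ring

lemma integrable_cc4 (c d e f : ι → ℝ) : Integrable
    (fun g => cosh (dot c g) * cosh (dot d g) * (cosh (dot e g) * cosh (dot f g))) (gaussVec ι) := by
  simp_rw [cc4_eq]
  exact ((((integrable_cc _ _).add (integrable_cc _ _)).add (integrable_cc _ _)).add
    (integrable_cc _ _)).div_const 4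

lemma integral_cc4 {c d e f : ι → ℝ} {A : ℝ} (hc : sq2 c = A) (hd : sq2 d = A) (he : sq2 e = A)
    (hf : sq2 f = A) :
    ∫ g, cosh (dot c g) * cosh (dot d g) * (cosh (dot e g) * cosh (dot f g)) ∂gaussVec ι
      = exp (2 * A) * ((exp (dot c d) * exp (dot e f) * cosh (dot c e + dot c f + dot d e + dot d f)
        + exp (dot c d) * exp (-dot e f) * cosh (dot c e - dot c f + dot d e - dot d f)
        + exp (-dot c d) * exp (dot e f) * cosh (dot c e + dot c f - dot d e - dot d f)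
        + exp (-dot c d) * exp (-dot e f) * cosh (dot c e - dot c f - dot d e + dot d f)) / 4) := by
  simp_rw [cc4_eq]
  rw [integral_div, integral_add (((integrable_cc _ _).fun_add (integrable_cc _ _)).fun_add
      (integrable_cc _ _)) (integrable_cc _ _),
    integral_add ((integrable_cc _ _).fun_add (integrable_cc _ _)) (integrable_cc _ _),
    integral_add (integrable_cc _ _) (integrable_cc _ _), integral_cc, integral_cc, integral_cc,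
    integral_cc]
  simp only [sq2_add, sq2_sub, hc, hd, he, hf]
  have d1 : dot (c + d) (e + f) = dot c e + dot c f + dot d e + dot d f := by
    rw [dot_add, dot_comm c (e + f), dot_comm d (e + f), dot_add, dot_add, dot_comm e c,
      dot_comm f c, dot_comm e d, dot_comm f d]; ring
  have d2 : dot (c + d) (e - f) = dot c e - dot c f + dot d e - dot d f := by
    rw [dot_add, dot_comm c (e - f), dot_comm d (e - f), dot_sub, dot_sub, dot_comm e c,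
      dot_comm f c, dot_comm e d, dot_comm f d]; ring
  have d3 : dot (c - d) (e + f) = dot c e + dot c f - dot d e - dot d f := by
    rw [dot_sub, dot_comm c (e + f), dot_comm d (e + f), dot_add, dot_add, dot_comm e c,
      dot_comm f c, dot_comm e d, dot_comm f d]; ring
  have d4 : dot (c - d) (e - f) = dot c e - dot c f - dot d e + dot d f := by
    rw [dot_sub, dot_comm c (e - f), dot_comm d (e - f), dot_sub, dot_sub, dot_comm e c,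
      dot_comm f c, dot_comm e d, dot_comm f d]; ring
  have hx : ∀ p r : ℝ, exp ((A + A + 2 * p + (A + A + 2 * r)) / 2) = exp (2 * A) * (exp p * exp r) :=
    fun p r => by rw [← exp_add, ← exp_add]; ring_nf
  have n1 : ∀ p : ℝ, A + A - 2 * p = A + A + 2 * -p := fun p => by ring
  simp only [n1, hx, d1, d2, d3, d4]
  ring

end vectors

/-- the constant of the decoupling bound -/
noncomputable def Kd (b : ℝ) : ℝ := 2 * exp (4 * b + 8 * b ^ 2)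

lemma Kd_pos (b : ℝ) : 0 < Kd b := by unfold Kd; positivity

lemma exp_cosh_term {b X u v : ℝ} (hX : |X| ≤ 4 * b) (hu : u ≤ b) (hv : v ≤ b) :
    exp u * exp v ≤ exp u * exp v * cosh X ∧
      exp u * exp v * cosh X ≤ exp u * exp v + X ^ 2 / 2 * exp (2 * b + 8 * b ^ 2) := by
  have h1 := one_le_cosh X
  have h2 := cosh_sub_one_le hX
  have huv : exp u * exp v ≤ exp (2 * b) := by
    rw [← exp_add]; exact exp_le_exp.mpr (by linarith)
  refine ⟨le_mul_of_one_le_right (mul_nonneg (exp_pos u).le (exp_pos v).le) h1, ?_⟩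
  have h3 : exp u * exp v * (cosh X - 1) ≤ exp (2 * b) * (X ^ 2 / 2 * exp ((4 * b) ^ 2 / 2)) :=
    mul_le_mul huv h2 (by linarith) (exp_pos _).le
  have h4 : exp (2 * b) * (X ^ 2 / 2 * exp ((4 * b) ^ 2 / 2))
      = X ^ 2 / 2 * exp (2 * b + 8 * b ^ 2) := by
    rw [exp_add]; ring_nf
  linarith

lemma cosh_cosh_bound {b p r : ℝ} (hb : 0 ≤ b) (hp : |p| ≤ b) (hr : |r| ≤ b) :
    1 ≤ cosh p * cosh r ∧
      cosh p * cosh r - 1 ≤ (p ^ 2 + r ^ 2) / 2 * exp (2 * b + 8 * b ^ 2) := by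
  set E := exp (2 * b + 8 * b ^ 2)
  have c1 := cosh_sub_one_le hp
  have c2 := cosh_sub_one_le hr
  have hb2 : 0 ≤ b ^ 2 := sq_nonneg b
  have hr2 : r ^ 2 ≤ b ^ 2 := by rw [← sq_abs]; exact pow_le_pow_left₀ (abs_nonneg r) hr 2
  have c5 : cosh r ≤ exp (b ^ 2 / 2) :=
    (cosh_le_exp_half_sq r).trans (exp_le_exp.mpr (by linarith))
  have e1 : exp (b ^ 2 / 2) * exp (b ^ 2 / 2) ≤ E := by
    rw [← exp_add]; exact exp_le_exp.mpr (by linarith)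
  have e2 : exp (b ^ 2 / 2) ≤ E := exp_le_exp.mpr (by linarith)
  refine ⟨one_le_mul_of_one_le_of_one_le (one_le_cosh p) (one_le_cosh r), ?_⟩
  have h1 : (cosh p - 1) * cosh r ≤ p ^ 2 / 2 * (exp (b ^ 2 / 2) * exp (b ^ 2 / 2)) := by
    rw [← mul_assoc]
    exact mul_le_mul c1 c5 (cosh_pos _).le
      (mul_nonneg (div_nonneg (sq_nonneg p) two_pos.le) (exp_pos _).le)
  have h2 := mul_le_mul_of_nonneg_left e1 (div_nonneg (sq_nonneg p) two_pos.le)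
  have h3 := mul_le_mul_of_nonneg_left e2 (div_nonneg (sq_nonneg r) two_pos.le)
  linarith

/-- four cavity factors are uncorrelated up to squares of the six overlaps -/
lemma quad_exp_bound {b p r x y z w : ℝ} (hb : 0 ≤ b) (hp : |p| ≤ b) (hr : |r| ≤ b) (hx : |x| ≤ b)
    (hy : |y| ≤ b) (hz : |z| ≤ b) (hw : |w| ≤ b) :
    |(exp p * exp r * cosh (x + y + z + w) + exp p * exp (-r) * cosh (x - y + z - w)
      + exp (-p) * exp r * cosh (x + y - z - w) + exp (-p) * exp (-r) * cosh (x - y - z + w)) / 4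
      - 1| ≤ Kd b / exp (2 * b) * (p ^ 2 + r ^ 2 + x ^ 2 + y ^ 2 + z ^ 2 + w ^ 2) := by
  obtain ⟨a1, b1⟩ := exp_cosh_term (X := x + y + z + w) (u := p) (v := r) (b := b)
    (by grind) (le_of_abs_le hp) (le_of_abs_le hr)
  obtain ⟨a2, b2⟩ := exp_cosh_term (X := x - y + z - w) (u := p) (v := -r) (b := b)
    (by grind) (le_of_abs_le hp) ((neg_le_abs r).trans hr)
  obtain ⟨a3, b3⟩ := exp_cosh_term (X := x + y - z - w) (u := -p) (v := r) (b := b)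
    (by grind) ((neg_le_abs p).trans hp) (le_of_abs_le hr)
  obtain ⟨a4, b4⟩ := exp_cosh_term (X := x - y - z + w) (u := -p) (v := -r) (b := b)
    (by grind) ((neg_le_abs p).trans hp) ((neg_le_abs r).trans hr)
  obtain ⟨c7, c6⟩ := cosh_cosh_bound hb hp hr
  have hK : Kd b / exp (2 * b) = 2 * exp (2 * b + 8 * b ^ 2) := by
    rw [Kd, mul_div_assoc, ← exp_sub]; ring_nf
  rw [hK]
  set E := exp (2 * b + 8 * b ^ 2) with hE
  have hE0 : 0 ≤ E := (exp_pos _).le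
  have hsum : (exp p * exp r + exp p * exp (-r) + exp (-p) * exp r + exp (-p) * exp (-r)) / 4
      = cosh p * cosh r := by
    rw [cosh_eq, cosh_eq]; ring
  have hX3 : ((x + y + z + w) ^ 2 + (x - y + z - w) ^ 2 + (x + y - z - w) ^ 2
      + (x - y - z + w) ^ 2) * E = 4 * (x ^ 2 + y ^ 2 + z ^ 2 + w ^ 2) * E := by ring
  have e3 : 0 ≤ (p ^ 2 + r ^ 2 + x ^ 2 + y ^ 2 + z ^ 2 + w ^ 2) * E :=
    mul_nonneg (by positivity) hE0
  have e4 : 0 ≤ (p ^ 2 + r ^ 2) * E := mul_nonneg (by linarith [sq_nonneg p, sq_nonneg r]) hE0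
  have e5 : 0 ≤ (x ^ 2 + y ^ 2 + z ^ 2 + w ^ 2) * E :=
    mul_nonneg (by linarith [sq_nonneg x, sq_nonneg y, sq_nonneg z, sq_nonneg w]) hE0
  rw [abs_le]
  constructor <;> linarith

/-- one term of the centred second moment -/
lemma pair_term {W f f' D J K L N R : ℝ} (hW : 0 ≤ W) (h1 : 1 ≤ f ∧ f ≤ 2 * N ^ 2)
    (h2 : 1 ≤ f' ∧ f' ≤ 2 * N ^ 2) (hD : 0 ≤ D) (hD2 : D ≤ 2 * N ^ 2) (hK : 0 ≤ K) (hR : 0 ≤ R)
    (hJ : |J| ≤ K * (6 * L + N ^ 2 * R)) :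
    W * ((f - D) * (f' - D)) * J ≤ K * (6 * L * (W * ((f + D) * (f' + D)))
      + N ^ 2 * (16 * N ^ 4) * (W * R)) := by
  have g1 : |f - D| ≤ f + D := abs_le.2 ⟨by linarith [h1.1], by linarith⟩
  have g2 : |f' - D| ≤ f' + D := abs_le.2 ⟨by linarith [h2.1], by linarith⟩
  have hp : 0 ≤ (f + D) * (f' + D) := mul_nonneg (by linarith [h1.1]) (by linarith [h2.1])
  have hHH : (f + D) * (f' + D) ≤ 4 * N ^ 2 * (4 * N ^ 2) :=
    mul_le_mul (by linarith [h1.2]) (by linarith [h2.2]) (by linarith [h2.1]) (by positivity)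
  have t1 : (f - D) * (f' - D) * J ≤ (f + D) * (f' + D) * (K * (6 * L + N ^ 2 * R)) := by
    refine (le_abs_self _).trans ?_
    rw [abs_mul, abs_mul]
    exact mul_le_mul (mul_le_mul g1 g2 (abs_nonneg _) (by linarith [h1.1])) hJ (abs_nonneg _) hp
  have t2 := mul_le_mul_of_nonneg_left t1 hW
  have t3 := mul_le_mul_of_nonneg_left hHH
    (mul_nonneg (mul_nonneg hK hW) (mul_nonneg (sq_nonneg N) hR))
  linarith

variable {n : ℕ} (ν : Conf n → ℝ) (a : ℝ)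

/-- the mean of a statistic of two replicas -/
noncomputable def Dg (F : Conf n → Conf n → ℝ) : ℝ := ∑ ρ, ∑ σ, ν ρ * ν σ * F ρ σ

/-- the fine statistic -/
noncomputable def Fw (T : ℝ) (ρ σ : Conf n) : ℝ := 1 + overlap ρ σ ^ 2 / T

/-- relative centred change -/
noncomputable def Yc (F : Conf n → Conf n → ℝ) (g : Fin n → ℝ) : ℝ :=
  |Kf ν a (fun ρ σ => F ρ σ - Dg ν F) g| / Dg ν F

lemma Kf_sub (F : Conf n → Conf n → ℝ) (c : ℝ) (g : Fin n → ℝ) :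
    Kf ν a (fun ρ σ => F ρ σ - c) g = Kf ν a F g - c * Zc ν a g ^ 2 := by
  rw [Zc_sq]
  simp only [Kf, Finset.mul_sum, ← Finset.sum_sub_distrib]
  exact Finset.sum_congr rfl fun ρ _ => Finset.sum_congr rfl fun σ _ => by ring

lemma Dg_Fw (h1 : ∑ ρ, ν ρ = 1) (T : ℝ) : Dg ν (Fw T) = 1 + Wc ν / T := by
  unfold Dg Fw Wc
  simp only [mul_add, mul_one, Finset.sum_add_distrib, sum_two ν h1, Finset.sum_div]
  congr 1
  exact Finset.sum_congr rfl fun ρ _ => Finset.sum_congr rfl fun σ _ => by ring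

variable {ν a} {b Nr s ε T : ℝ}
variable (hν : ∀ ρ, 0 ≤ ν ρ) (h1 : ∑ ρ, ν ρ = 1) (hb : a ^ 2 * n ≤ b)
include hν h1 hb

lemma cc4_cv (ρ σ τ υ : Conf n) :
    |(∫ g, cosh (dot (cv a ρ) g) * cosh (dot (cv a σ) g)
        * (cosh (dot (cv a τ) g) * cosh (dot (cv a υ) g)) ∂gaussVec (Fin n)) - exp (2 * (a ^ 2 * n))|
      ≤ Kd b * (a ^ 2) ^ 2 * (overlap ρ σ ^ 2 + overlap τ υ ^ 2 + overlap ρ τ ^ 2
        + overlap ρ υ ^ 2 + overlap σ τ ^ 2 + overlap σ υ ^ 2) := by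
  have hb0 : 0 ≤ b := le_trans (by positivity) hb
  rw [integral_cc4 (sq2_cv a ρ) (sq2_cv a σ) (sq2_cv a τ) (sq2_cv a υ)]
  simp only [dot_cv]
  have ht := abs_theta hν h1 hb
  have h := quad_exp_bound hb0 (ht ρ σ) (ht τ υ) (ht ρ τ) (ht ρ υ) (ht σ τ) (ht σ υ)
  rw [← mul_sub_one, abs_mul, abs_of_pos (exp_pos _)]
  calc exp (2 * (a ^ 2 * n)) * _
      ≤ exp (2 * b) * _ := mul_le_mul (exp_le_exp.mpr (by linarith)) h (abs_nonneg _) (exp_pos _).le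
    _ = _ := by field_simp

omit hν hb in
lemma sum_marg (χ : Conf n → Conf n → ℝ) :
    (∑ ρ, ∑ σ, ∑ τ, ∑ υ, ν ρ * ν σ * (ν τ * ν υ) * χ ρ σ) = Dg ν χ
    ∧ (∑ ρ, ∑ σ, ∑ τ, ∑ υ, ν ρ * ν σ * (ν τ * ν υ) * χ τ υ) = Dg ν χ
    ∧ (∑ ρ, ∑ σ, ∑ τ, ∑ υ, ν ρ * ν σ * (ν τ * ν υ) * χ ρ τ) = Dg ν χ
    ∧ (∑ ρ, ∑ σ, ∑ τ, ∑ υ, ν ρ * ν σ * (ν τ * ν υ) * χ ρ υ) = Dg ν χ
    ∧ (∑ ρ, ∑ σ, ∑ τ, ∑ υ, ν ρ * ν σ * (ν τ * ν υ) * χ σ τ) = Dg ν χ
    ∧ (∑ ρ, ∑ σ, ∑ τ, ∑ υ, ν ρ * ν σ * (ν τ * ν υ) * χ σ υ) = Dg ν χ := by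
  have hu : ∀ K X : ℝ, ∑ υ : Conf n, K * ν υ * X = K * X := fun K X => by
    rw [← Finset.sum_mul, ← Finset.mul_sum, h1, mul_one]
  have e : ∀ ρ σ τ υ : Conf n, ν ρ * ν σ * (ν τ * ν υ) = ν ρ * ν σ * ν τ * ν υ :=
    fun ρ σ τ υ => by ring
  unfold Dg
  refine ⟨?_, ?_, ?_, ?_, ?_, ?_⟩
  · simp only [e, hu]
  · rw [Finset.sum_comm]
    simp only [fun ρ σ τ υ => show ν ρ * ν σ * (ν τ * ν υ) * χ τ υ
      = ν σ * ν ρ * (ν τ * ν υ * χ τ υ) by ring, ← Finset.mul_sum]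
    simp only [← Finset.sum_mul, ← Finset.mul_sum, h1, mul_one, one_mul]
  · simp only [e, hu]
    refine Finset.sum_congr rfl fun ρ _ => ?_
    rw [Finset.sum_comm]
    simp only [fun σ τ => show ν ρ * ν σ * ν τ * χ ρ τ = ν ρ * ν σ * (ν τ * χ ρ τ) by ring, hu]
    exact Finset.sum_congr rfl fun τ _ => by ring
  · refine Finset.sum_congr rfl fun ρ _ => ?_
    simp only [fun σ τ υ => show ν ρ * ν σ * (ν τ * ν υ) * χ ρ υ
      = ν ρ * ν σ * (ν τ * (ν υ * χ ρ υ)) by ring, ← Finset.mul_sum]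
    rw [← Finset.sum_mul, ← Finset.sum_mul, ← Finset.mul_sum, h1, mul_one, one_mul, Finset.mul_sum]
    exact Finset.sum_congr rfl fun τ _ => by ring
  · simp only [e, hu]
    rw [Finset.sum_comm]
    refine Finset.sum_congr rfl fun σ _ => ?_
    rw [Finset.sum_comm]
    refine Finset.sum_congr rfl fun τ _ => ?_
    simp only [fun ρ => show ν ρ * ν σ * ν τ * χ σ τ = ν ρ * (ν σ * ν τ * χ σ τ) by ring]
    rw [← Finset.sum_mul, h1, one_mul]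
  · rw [Finset.sum_comm]
    refine Finset.sum_congr rfl fun σ _ => ?_
    simp only [fun ρ τ υ => show ν ρ * ν σ * (ν τ * ν υ) * χ σ υ
      = ν ρ * (ν σ * (ν τ * (ν υ * χ σ υ))) by ring, ← Finset.mul_sum]
    rw [← Finset.sum_mul, ← Finset.sum_mul, h1, one_mul, one_mul, Finset.mul_sum]
    exact Finset.sum_congr rfl fun τ _ => by ring

omit hb in
lemma tail_weight (hnN : (n:ℝ) ≤ Nr) (hs : 0 ≤ s) :
    ∃ χ : Conf n → Conf n → ℝ, (∀ ρ σ, 0 ≤ χ ρ σ) ∧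
      (∀ ρ σ, overlap ρ σ ^ 2 ≤ 4 * ε ^ 2 * Nr ^ 2 + Nr ^ 2 * χ ρ σ) ∧
      Dg ν χ ≤ min 1 (Dc ν s * exp (-2 * (ε * (s * Nr)))) := by
  obtain ⟨χ, hχ⟩ : ∃ χ : Conf n → Conf n → ℝ,
      ∀ ρ σ, χ ρ σ = if |overlap ρ σ| ≤ 2 * ε * Nr then 0 else 1 := ⟨_, fun _ _ => rfl⟩
  refine ⟨χ, fun ρ σ => ?_, fun ρ σ => ?_, le_min ?_ ?_⟩
  · rw [hχ]; split_ifs <;> norm_num
  · have hN2 : 0 ≤ Nr ^ 2 := sq_nonneg _
    have hL : 0 ≤ 4 * ε ^ 2 * Nr ^ 2 := mul_nonneg (by linarith [sq_nonneg ε]) hN2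
    rw [hχ, ← sq_abs]
    split_ifs with h
    · have := pow_le_pow_left₀ (abs_nonneg _) h 2
      linarith
    · have := pow_le_pow_left₀ (abs_nonneg _) ((abs_overlap_le ρ σ).trans hnN) 2
      linarith
  · calc Dg ν χ ≤ ∑ ρ, ∑ σ, ν ρ * ν σ := Finset.sum_le_sum fun ρ _ =>
          Finset.sum_le_sum fun σ _ => mul_le_of_le_one_right (mul_nonneg (hν ρ) (hν σ))
            (by rw [hχ]; split_ifs <;> norm_num)
      _ = 1 := sum_two ν h1
  · simp only [Dg, Dc, Finset.sum_mul]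
    refine Finset.sum_le_sum fun ρ _ => Finset.sum_le_sum fun σ _ => ?_
    rw [mul_assoc _ (exp _) (exp _)]
    refine mul_le_mul_of_nonneg_left ?_ (mul_nonneg (hν ρ) (hν σ))
    rw [hχ]
    split_ifs with h
    · exact mul_nonneg (exp_pos _).le (exp_pos _).le
    · rw [← exp_add]
      refine one_le_exp ?_
      push Not at h
      have := mul_le_mul_of_nonneg_left h.le hs
      linarith

omit hb in
lemma Dg_Fw_ge (hT : 0 ≤ T) : 1 ≤ Dg ν (Fw T) := by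
  rw [Dg_Fw ν h1]; have := Wc_nonneg ν; linarith [div_nonneg this hT]

lemma centred_sq_le {χ : Conf n → Conf n → ℝ} {L D : ℝ}
    {F : Conf n → Conf n → ℝ} (hF : ∀ ρ σ, 1 ≤ F ρ σ ∧ F ρ σ ≤ 2 * Nr ^ 2) (hD : D = Dg ν F)
    (hD1 : 1 ≤ D) (hD2 : D ≤ 2 * Nr ^ 2) (hχ0 : ∀ ρ σ, 0 ≤ χ ρ σ)
    (hq : ∀ ρ σ, overlap ρ σ ^ 2 ≤ L + Nr ^ 2 * χ ρ σ) :
    Integrable (fun g => Kf ν a (fun ρ σ => F ρ σ - D) g ^ 2) (gaussVec (Fin n)) ∧
    ∫ g, Kf ν a (fun ρ σ => F ρ σ - D) g ^ 2 ∂gaussVec (Fin n)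
      ≤ Kd b * (a ^ 2) ^ 2 * (24 * L * D ^ 2 + 96 * Nr ^ 6 * Dg ν χ) := by
  have hint : ∀ ρ σ τ υ : Conf n, Integrable (fun g => ν ρ * ν σ * (ν τ * ν υ)
      * ((F ρ σ - D) * (F τ υ - D)) * (cosh (dot (cv a ρ) g) * cosh (dot (cv a σ) g)
      * (cosh (dot (cv a τ) g) * cosh (dot (cv a υ) g)))) (gaussVec (Fin n)) :=
    fun ρ σ τ υ => (integrable_cc4 _ _ _ _).const_mul _
  have e : (fun g => Kf ν a (fun ρ σ => F ρ σ - D) g ^ 2) = fun g => ∑ ρ, ∑ σ, ∑ τ, ∑ υ,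
      ν ρ * ν σ * (ν τ * ν υ) * ((F ρ σ - D) * (F τ υ - D))
        * (cosh (dot (cv a ρ) g) * cosh (dot (cv a σ) g)
        * (cosh (dot (cv a τ) g) * cosh (dot (cv a υ) g))) := by
    funext g
    simp only [sq, Kf, Finset.sum_mul, Finset.mul_sum]
    exact Finset.sum_congr rfl fun ρ _ => Finset.sum_congr rfl fun σ _ =>
      Finset.sum_congr rfl fun τ _ => Finset.sum_congr rfl fun υ _ => by ring
  have i4 := fun ρ σ τ => integrable_finsetSum univ fun υ (_ : υ ∈ univ) => hint ρ σ τ υ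
  have i3 := fun ρ σ => integrable_finsetSum univ fun τ (_ : τ ∈ univ) => i4 ρ σ τ
  have i2 := fun ρ => integrable_finsetSum univ fun σ (_ : σ ∈ univ) => i3 ρ σ
  have i1 := integrable_finsetSum univ fun ρ (_ : ρ ∈ univ) => i2 ρ
  rw [e]
  refine ⟨i1, ?_⟩
  rw [integral_finsetSum _ fun ρ _ => i2 ρ]
  simp only [fun ρ => integral_finsetSum univ fun σ (_ : σ ∈ univ) => i3 ρ σ,
    fun ρ σ => integral_finsetSum univ fun τ (_ : τ ∈ univ) => i4 ρ σ τ,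
    fun ρ σ τ => integral_finsetSum univ fun υ (_ : υ ∈ univ) => hint ρ σ τ υ, integral_const_mul]
  clear i1 i2 i3 i4 hint e
  have hK0 : 0 ≤ Kd b * (a ^ 2) ^ 2 := mul_nonneg (Kd_pos b).le (sq_nonneg _)
  have key : ∀ ρ σ τ υ : Conf n, ν ρ * ν σ * (ν τ * ν υ) * ((F ρ σ - D) * (F τ υ - D))
      * ((∫ g, cosh (dot (cv a ρ) g) * cosh (dot (cv a σ) g)
        * (cosh (dot (cv a τ) g) * cosh (dot (cv a υ) g)) ∂gaussVec (Fin n))
          - exp (2 * (a ^ 2 * n)))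
      ≤ Kd b * (a ^ 2) ^ 2 * (6 * L * (ν ρ * ν σ * (ν τ * ν υ) * ((F ρ σ + D) * (F τ υ + D)))
        + Nr ^ 2 * (16 * Nr ^ 4) * (ν ρ * ν σ * (ν τ * ν υ)
          * (χ ρ σ + χ τ υ + χ ρ τ + χ ρ υ + χ σ τ + χ σ υ))) := fun ρ σ τ υ =>
    pair_term (mul_nonneg (mul_nonneg (hν ρ) (hν σ)) (mul_nonneg (hν τ) (hν υ))) (hF ρ σ) (hF τ υ)
      (le_trans zero_le_one hD1) hD2 hK0
      (by linarith [hχ0 ρ σ, hχ0 τ υ, hχ0 ρ τ, hχ0 ρ υ, hχ0 σ τ, hχ0 σ υ])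
      ((cc4_cv hν h1 hb ρ σ τ υ).trans (mul_le_mul_of_nonneg_left
        (by linarith [hq ρ σ, hq τ υ, hq ρ τ, hq ρ υ, hq σ τ, hq σ υ]) hK0))
  have hG0 : ∑ ρ, ∑ σ, ν ρ * ν σ * (F ρ σ - D) = 0 := by
    simp only [mul_sub, Finset.sum_sub_distrib]
    simp only [← Finset.sum_mul, sum_two ν h1, one_mul, hD, Dg, sub_self]
  have split4 : ∀ G : Conf n → Conf n → ℝ, ∑ ρ, ∑ σ, ∑ τ, ∑ υ, ν ρ * ν σ * (ν τ * ν υ)
      * (G ρ σ * G τ υ) = (∑ ρ, ∑ σ, ν ρ * ν σ * G ρ σ) ^ 2 := fun G => by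
    simp only [sq, Finset.sum_mul, Finset.mul_sum]
    exact Finset.sum_congr rfl fun ρ _ => Finset.sum_congr rfl fun σ _ =>
      Finset.sum_congr rfl fun τ _ => Finset.sum_congr rfl fun υ _ => by ring
  have hsum := Finset.sum_le_sum fun ρ (_ : ρ ∈ univ) => Finset.sum_le_sum fun σ (_ : σ ∈ univ) =>
    Finset.sum_le_sum fun τ (_ : τ ∈ univ) => Finset.sum_le_sum fun υ (_ : υ ∈ univ) => key ρ σ τ υ
  simp only [mul_sub _ _ (exp _), Finset.sum_sub_distrib] at hsum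
  rw [show ∑ ρ, ∑ σ, ∑ τ, ∑ υ, ν ρ * ν σ * (ν τ * ν υ) * ((F ρ σ - D) * (F τ υ - D))
      * exp (2 * (a ^ 2 * n)) = 0 by simp only [← Finset.sum_mul, split4, hG0]; ring, sub_zero] at hsum
  refine hsum.trans (le_of_eq ?_)
  obtain ⟨m1, m2, m3, m4, m5, m6⟩ := sum_marg h1 χ
  have hH : ∑ ρ, ∑ σ, ν ρ * ν σ * (F ρ σ + D) = 2 * D := by
    simp only [mul_add, Finset.sum_add_distrib, ← Finset.sum_mul, sum_two ν h1]
    rw [one_mul, two_mul, hD, Dg]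
  have hR : ∑ ρ, ∑ σ, ∑ τ, ∑ υ, ν ρ * ν σ * (ν τ * ν υ)
      * (χ ρ σ + χ τ υ + χ ρ τ + χ ρ υ + χ σ τ + χ σ υ) = 6 * Dg ν χ := by
    simp only [mul_add, Finset.sum_add_distrib, m1, m2, m3, m4, m5, m6]
    ring
  simp only [Finset.sum_add_distrib, ← Finset.mul_sum, split4 (fun ρ σ => F ρ σ + D), hH, hR]
  ring

lemma Yc_sq (hN : a ^ 2 * Nr = b) (hnN : (n:ℝ) ≤ Nr) (hN1 : 1 ≤ Nr) (hs : 0 ≤ s)
    (hT : 1 ≤ T) :
    Integrable (fun g => Yc ν a (Fw T) g ^ 2) (gaussVec (Fin n)) ∧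
    ∫ g, Yc ν a (Fw T) g ^ 2 ∂gaussVec (Fin n)
      ≤ 100 * Kd b * b ^ 2 * (ε ^ 2 + Nr ^ 4 * min 1 (Dc ν s * exp (-2 * (ε * (s * Nr))))) := by
  obtain ⟨χ, hχ0, hq, hP⟩ := tail_weight hν h1 hnN hs (Nr := Nr) (ε := ε)
  have hFb : ∀ ρ σ : Conf n, 1 ≤ Fw T ρ σ ∧ Fw T ρ σ ≤ 2 * Nr ^ 2 := by
    intro ρ σ
    have h2 : overlap ρ σ ^ 2 / T ≤ overlap ρ σ ^ 2 := div_le_self (sq_nonneg _) hT
    have h3 : overlap ρ σ ^ 2 ≤ Nr ^ 2 := by
      rw [← sq_abs]; exact pow_le_pow_left₀ (abs_nonneg _) ((abs_overlap_le ρ σ).trans hnN) 2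
    have : 0 ≤ overlap ρ σ ^ 2 / T := div_nonneg (sq_nonneg _) (by linarith)
    have : 1 ≤ Nr ^ 2 := one_le_pow₀ hN1
    unfold Fw; constructor <;> linarith
  set D := Dg ν (Fw T) with hD
  have hD1 : 1 ≤ D := Dg_Fw_ge hν h1 (by linarith)
  have hD2 : D ≤ 2 * Nr ^ 2 := by
    calc D ≤ ∑ ρ, ∑ σ, ν ρ * ν σ * (2 * Nr ^ 2) := Finset.sum_le_sum fun ρ _ =>
          Finset.sum_le_sum fun σ _ => mul_le_mul_of_nonneg_left (hFb ρ σ).2
            (mul_nonneg (hν ρ) (hν σ))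
      _ = _ := by simp only [← Finset.sum_mul, sum_two ν h1, one_mul]
  obtain ⟨i1, hle⟩ := centred_sq_le hν h1 hb (Nr := Nr) hFb hD hD1 hD2 hχ0 hq
  have e : (fun g => Yc ν a (Fw T) g ^ 2)
      = fun g => Kf ν a (fun ρ σ => Fw T ρ σ - D) g ^ 2 / D ^ 2 := by
    funext g; rw [Yc, div_pow, sq_abs]
  rw [e, integral_div, div_le_iff₀ (by positivity)]
  refine ⟨i1.div_const _, hle.trans ?_⟩
  set J := min 1 (Dc ν s * exp (-2 * (ε * (s * Nr))))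
  have hχs : 0 ≤ Dg ν χ := Finset.sum_nonneg fun ρ _ => Finset.sum_nonneg fun σ _ =>
    mul_nonneg (mul_nonneg (hν ρ) (hν σ)) (hχ0 ρ σ)
  have h2 : 1 ≤ D ^ 2 := one_le_pow₀ hD1
  have h3 : Dg ν χ ≤ J * D ^ 2 := hP.trans (le_mul_of_one_le_right (hχs.trans hP) h2)
  have h4 : 0 ≤ ε ^ 2 * D ^ 2 := mul_nonneg (sq_nonneg _) (sq_nonneg _)
  have h5 := mul_le_mul_of_nonneg_left h3 (by positivity : 0 ≤ Nr ^ 4)
  have h6 : 0 ≤ Nr ^ 4 * (J * D ^ 2) := mul_nonneg (by positivity) (hχs.trans h3)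
  calc Kd b * (a ^ 2) ^ 2 * (24 * (4 * ε ^ 2 * Nr ^ 2) * D ^ 2 + 96 * Nr ^ 6 * Dg ν χ)
      = Kd b * b ^ 2 * (96 * (ε ^ 2 * D ^ 2) + 96 * (Nr ^ 4 * Dg ν χ)) := by rw [← hN]; ring
    _ ≤ Kd b * b ^ 2 * (100 * (ε ^ 2 * D ^ 2) + 100 * (Nr ^ 4 * (J * D ^ 2))) :=
        mul_le_mul_of_nonneg_left (by linarith) (mul_nonneg (Kd_pos b).le (sq_nonneg b))
    _ = _ := by ring

end Vale.Agent.P150
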