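import Vale.Agent.P150.Crit.Cavity

/-! One cavity step at `β = 1`. -/

namespace Vale.Agent.P150

open MeasureTheory ProbabilityTheory Real Finset

/-- second overlap moment of two replicas -/
noncomputable def statW {N : ℕ} (β : ℝ) (g : Fin N × Fin N → ℝ) : ℝ :=
  expect β g fun x => expect β g fun y => overlap x y ^ 2

/-- the weight -/
noncomputable def cutC (T U lam W D : ℝ) : ℝ := 1 / (1 + W / T + (D / U) ^ lam)

/-- the weight of a disorder -/
noncomputable def psiC {N : ℕ} (T U lam s : ℝ) (g : Fin N × Fin N → ℝ) : ℝ :=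
  cutC T U lam (statW 1 g) (stat 1 g s)

lemma statW_nonneg {N : ℕ} (β : ℝ) (g : Fin N × Fin N → ℝ) : 0 ≤ statW β g :=
  expect_nonneg β g fun x => expect_nonneg β g fun y => sq_nonneg _

lemma rpow_change {D D' R U lam : ℝ} (hU : 0 < U) (hD : 0 ≤ D) (hD' : 0 ≤ D') (hR : 0 ≤ R)
    (hl : 0 ≤ lam) (hl1 : lam ≤ 1) (h : D ≤ R * D') :
    (D / U) ^ lam ≤ (D' / U) ^ lam * (1 + lam * R) := by
  have a1 : (D / U) ^ lam ≤ R ^ lam * (D' / U) ^ lam := by
    rw [← mul_rpow hR (div_nonneg hD' hU.le)]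
    refine rpow_le_rpow (div_nonneg hD hU.le) ?_ hl
    rw [← mul_div_assoc]; gcongr
  have a2 : R ^ lam ≤ 1 + lam * R := by
    have h := rpow_one_add_le_one_add_mul_self (s := R - 1) (by linarith) hl hl1
    simp only [add_sub_cancel] at h
    linarith
  refine a1.trans ?_
  rw [mul_comm (R ^ lam)]
  exact mul_le_mul_of_nonneg_left a2 (rpow_nonneg (div_nonneg hD' hU.le) _)

section cut
variable {T U lam W D : ℝ} (hT : 0 < T) (hU : 0 < U) (hW : 0 ≤ W) (hD : 0 ≤ D)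
include hT hU hW hD

lemma cutC_pos : 0 < 1 + W / T + (D / U) ^ lam := by
  have := rpow_nonneg (div_nonneg hD hU.le) lam
  have : 0 ≤ W / T := div_nonneg hW hT.le
  linarith

lemma cutC_mem : 0 ≤ cutC T U lam W D ∧ cutC T U lam W D ≤ 1 := by
  have h := cutC_pos (lam := lam) hT hU hW hD
  have := rpow_nonneg (div_nonneg hD hU.le) lam
  have : 0 ≤ W / T := div_nonneg hW hT.le
  exact ⟨div_nonneg zero_le_one h.le, div_le_one_of_le₀ (by linarith) h.le⟩

lemma cutC_mul_le : cutC T U lam W D * W ≤ T := by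
  have h := cutC_pos (lam := lam) hT hU hW hD
  have h2 := rpow_nonneg (div_nonneg hD hU.le) lam
  rw [cutC, div_mul_eq_mul_div, one_mul, div_le_iff₀ h]
  have e : T * (W / T) = W := mul_div_cancel₀ W hT.ne'
  have := mul_nonneg hT.le h2
  linarith

lemma cutC_le_cutoff : cutC T U lam W D ≤ cutoff U lam D := by
  have h2 := rpow_nonneg (div_nonneg hD hU.le) lam
  have : 0 ≤ W / T := div_nonneg hW hT.le
  exact div_le_div_of_nonneg_left zero_le_one (by linarith) (by linarith)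

lemma cutC_change {W' D' d : ℝ} (hW' : 0 ≤ W') (hD' : 0 ≤ D')
    (h1 : 1 + W' / T ≤ d * (1 + W / T)) (h2 : (D' / U) ^ lam ≤ (D / U) ^ lam * d) :
    cutC T U lam W D ≤ cutC T U lam W' D' * d := by
  have hA := cutC_pos (lam := lam) hT hU hW hD
  have hB := cutC_pos (lam := lam) hT hU hW' hD'
  rw [cutC, cutC, div_mul_eq_mul_div, one_mul, div_le_div_iff₀ hA hB, one_mul]
  linarith

end cut

/-- the constant of the step -/
noncomputable def Cs : ℝ := 40 * (Kc 1 + 100 * Kd 1 + exp 8 + 50)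

section step
variable {n : ℕ} (g : Fin (n + 1) × Fin (n + 1) → ℝ)

lemma fw_step {T : ℝ} (hT : 1 ≤ T) {q q' : ℝ} (h : |q'| ≤ |q| + 1) :
    1 + q' ^ 2 / T ≤ (1 + 2 / √T) * (1 + q ^ 2 / T) := by
  have hs : 1 ≤ √T := one_le_sqrt.2 hT
  have hT0 : 0 < T := by linarith
  have h2 : q' ^ 2 ≤ (|q| + 1) ^ 2 := by rw [← sq_abs q']; exact pow_le_pow_left₀ (abs_nonneg _) h 2
  have hsq : √T ^ 2 = T := sq_sqrt hT0.le
  have key : (2 * |q| + 1) / T ≤ 2 / √T * (1 + q ^ 2 / T) := by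
    rw [div_le_iff₀ hT0]
    have e : 2 / √T * (1 + q ^ 2 / T) * T = 2 * (√T + q ^ 2 / √T) := by
      have : 0 < √T := by linarith
      field_simp
      linear_combination -hsq
    rw [e]
    have h3 : 2 * |q| ≤ √T + q ^ 2 / √T := by
      rw [← sub_nonneg, show √T + q ^ 2 / √T - 2 * |q| = (√T - |q|) ^ 2 / √T by
        rw [← sq_abs q]; field_simp; ring]
      positivity
    have : 0 ≤ q ^ 2 / √T := by positivity
    linarith
  have h4 : q' ^ 2 / T ≤ q ^ 2 / T + (2 * |q| + 1) / T := by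
    rw [← add_div]; gcongr
    rw [← sq_abs q]; linarith
  linarith

lemma expect_two_const_add {N : ℕ} (β : ℝ) (g : Fin N × Fin N → ℝ) (c k : ℝ)
    (G : Conf N → Conf N → ℝ) :
    expect β g (fun x => expect β g fun y => c + k * G x y)
      = c + k * expect β g (fun x => expect β g fun y => G x y) := by
  simp only [expect, mul_add, Finset.sum_add_distrib, Finset.mul_sum]
  congr 1
  · simp only [← Finset.sum_mul, ← Finset.mul_sum, gibbs_sum, one_mul]
  · exact Finset.sum_congr rfl fun x _ => Finset.sum_congr rfl fun y _ => by ring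

lemma statW_bounds {T : ℝ} (hT : 1 ≤ T) :
    1 + statW 1 g / T ≤ (1 + 2 / √T) * (Kf (cavityGibbs 1 g) (1 / √((n + 1 : ℕ) : ℝ)) (Fw T)
        (fun k => g (0, k.succ))
        / Zc (cavityGibbs 1 g) (1 / √((n + 1 : ℕ) : ℝ)) (fun k => g (0, k.succ)) ^ 2)
    ∧ Kf (cavityGibbs 1 g) (1 / √((n + 1 : ℕ) : ℝ)) (Fw T) (fun k => g (0, k.succ))
        / Zc (cavityGibbs 1 g) (1 / √((n + 1 : ℕ) : ℝ)) (fun k => g (0, k.succ)) ^ 2
      ≤ (1 + 2 / √T) * (1 + statW 1 g / T) := by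
  rw [← expect_rest_two 1 g (Fw T)]
  have e : 1 + statW 1 g / T
      = expect 1 g (fun x => expect 1 g fun y => 1 + 1 / T * overlap x y ^ 2) := by
    rw [expect_two_const_add 1 g 1 (1 / T) (fun x y => overlap x y ^ 2), statW]; ring
  have hk : ∀ G : Conf (n + 1) → Conf (n + 1) → ℝ,
      (1 + 2 / √T) * expect 1 g (fun x => expect 1 g fun y => G x y)
        = expect 1 g (fun x => expect 1 g fun y => 0 + (1 + 2 / √T) * G x y) := fun G => by
    rw [expect_two_const_add, zero_add]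
  have ho : ∀ x y : Conf (n + 1),
      overlap x y = spin (x 0) * spin (y 0) + overlap (Fin.tail x) (Fin.tail y) := fun x y => by
    simp [overlap, Fin.sum_univ_succ, Fin.tail]
  have hp : ∀ x y : Conf (n + 1), |spin (x 0) * spin (y 0)| = 1 := fun x y => by
    rw [abs_mul, abs_spin, abs_spin, mul_one]
  have f1 : ∀ x y : Conf (n + 1), |overlap x y| ≤ |overlap (Fin.tail x) (Fin.tail y)| + 1 := by
    intro x y
    rw [ho]; exact (abs_add_le _ _).trans (by rw [hp]; linarith)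
  have f2 : ∀ x y : Conf (n + 1), |overlap (Fin.tail x) (Fin.tail y)| ≤ |overlap x y| + 1 := by
    intro x y
    have h := abs_add_le (overlap x y) (-(spin (x 0) * spin (y 0)))
    rw [abs_neg, hp, ho, add_neg_cancel_comm] at h
    rw [ho]; linarith
  rw [e]
  constructor
  · rw [hk]
    refine expect_mono 1 g fun x => expect_mono 1 g fun y => ?_
    have := fw_step hT (f1 x y)
    simp only [Fw, zero_add]
    linarith [show 1 / T * overlap x y ^ 2 = overlap x y ^ 2 / T by ring]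
  · rw [hk]
    refine expect_mono 1 g fun x => expect_mono 1 g fun y => ?_
    have := fw_step hT (f2 x y)
    simp only [Fw, zero_add]
    rw [show 1 / T * overlap x y ^ 2 = overlap x y ^ 2 / T by ring]
    linarith

/-- the hypotheses of the two cavity inequalities -/
lemma psi_change {T U ε s : ℝ} (hT : 1 ≤ T) (hU : 0 < U) (hε : 0 < ε) (hε1 : ε ≤ 1) (hs : 0 ≤ s) :
    let a := 1 / √((n + 1 : ℕ) : ℝ)
    let ν := cavityGibbs 1 g
    let h : Fin n → ℝ := fun k => g (0, k.succ)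
    cutC T U ε (Wc ν) (Dc ν s) ≤ psiC T U ε s g * ((1 + 2 / √T)
        + (1 + 2 / √T) * (Yc ν a (Fw T) h / Zc ν a h ^ 2)
        + ε * exp s * Kf ν a (fun ρ σ => exp (s * |overlap ρ σ|)) h / (Dc ν s * Zc ν a h ^ 2))
    ∧ psiC T U ε s g ≤ cutC T U ε (Wc ν) (Dc ν s) * ((1 + 2 / √T)
        + (1 + 2 / √T) * Yc ν a (Fw T) h + ε * exp s * Zc ν a h ^ 2) := by
  intro a ν h
  have hν := cavityGibbs_nonneg 1 g
  have h1 := cavityGibbs_sum 1 g
  have hT0 : 0 < T := by linarith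
  obtain ⟨w1, w2⟩ := statW_bounds g hT
  obtain ⟨b1, b2⟩ := stat_bounds 1 g hs
  have hW := Wc_nonneg ν
  have hWf := statW_nonneg 1 g
  have hD0 : 0 < Dc ν s := lt_of_lt_of_le one_pos (Dc_pos ν hν h1 hs)
  have hS0 : 0 < stat 1 g s := lt_of_lt_of_le one_pos (stat_ge_one 1 hs g)
  have hZ1 : 1 ≤ Zc ν a h := one_le_Zc ν a hν h1 h
  have hZ2 : 0 < Zc ν a h ^ 2 := pow_pos (lt_of_lt_of_le one_pos hZ1) 2
  set κ := 1 + 2 / √T with hκ
  have hκ1 : 1 ≤ κ := le_add_of_nonneg_right (div_nonneg two_pos.le (sqrt_nonneg _))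
  set K := Kf ν a (Fw T) h with hK
  set D := Dg ν (Fw T) with hD
  have hDW : D = 1 + Wc ν / T := Dg_Fw ν h1 T
  have hD1 : 1 ≤ D := Dg_Fw_ge hν h1 hT0.le
  set Y := Yc ν a (Fw T) h with hY
  have hY0 : 0 ≤ Y := div_nonneg (abs_nonneg _) (by linarith)
  have hYeq : |K - D * Zc ν a h ^ 2| = Y * D := by
    rw [hY, Yc, Kf_sub, ← hD, ← hK, div_mul_cancel₀ _ (by linarith : D ≠ 0)]
  have hKD : D ≤ K := by
    refine Finset.sum_le_sum fun ρ _ => Finset.sum_le_sum fun σ _ => ?_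
    have hq : 0 ≤ overlap ρ σ ^ 2 / T := div_nonneg (sq_nonneg _) hT0.le
    exact le_mul_of_one_le_right (mul_nonneg (mul_nonneg (hν ρ) (hν σ)) (by unfold Fw; linarith))
      (one_le_mul_of_one_le_of_one_le (one_le_cosh _) (one_le_cosh _))
  set R := exp s * (Kf ν a (fun ρ σ => exp (s * |overlap ρ σ|)) h / Zc ν a h ^ 2) / Dc ν s with hR
  have hK2 : 0 ≤ Kf ν a (fun ρ σ => exp (s * |overlap ρ σ|)) h :=
    Kf_nonneg ν a hν (fun _ _ => (exp_pos _).le) h
  have hR0 : 0 ≤ R := by rw [hR]; positivity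
  have hR1 : stat 1 g s ≤ R * Dc ν s := by rw [hR, div_mul_cancel₀ _ hD0.ne']; exact b1
  constructor
  · rw [show ε * exp s * Kf ν a (fun ρ σ => exp (s * |overlap ρ σ|)) h / (Dc ν s * Zc ν a h ^ 2)
        = ε * R by rw [hR]; ring]
    have hq : 0 ≤ κ * (Y / Zc ν a h ^ 2) :=
      mul_nonneg (by linarith) (div_nonneg hY0 hZ2.le)
    refine cutC_change hT0 hU hW hD0.le hWf hS0.le ?_ ?_
    · rw [← hDW]
      refine w1.trans ?_
      have h4 : K / Zc ν a h ^ 2 ≤ D + Y / Zc ν a h ^ 2 * D := by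
        rw [div_le_iff₀ hZ2, add_mul, mul_right_comm, div_mul_cancel₀ _ hZ2.ne']
        linarith [le_abs_self (K - D * Zc ν a h ^ 2)]
      have h5 := mul_le_mul_of_nonneg_left h4 (le_trans zero_le_one hκ1)
      have : 0 ≤ ε * R * D := mul_nonneg (mul_nonneg hε.le hR0) (by linarith)
      linarith
    · refine (rpow_change hU hS0.le hD0.le hR0 hε.le hε1 hR1).trans ?_
      exact mul_le_mul_of_nonneg_left (by linarith) (rpow_nonneg (div_nonneg hD0.le hU.le) _)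
  · have hq : 0 ≤ κ * Y := mul_nonneg (by linarith) hY0
    refine cutC_change hT0 hU hWf hS0.le hW hD0.le ?_ ?_
    · rw [← hDW]
      have h4 : D * Zc ν a h ^ 2 ≤ (1 + Y) * K := by
        have := mul_le_mul_of_nonneg_left hKD hY0
        linarith [neg_abs_le (K - D * Zc ν a h ^ 2)]
      have h5 : D ≤ (1 + Y) * (K / Zc ν a h ^ 2) := by
        rw [← mul_div_assoc, le_div_iff₀ hZ2]; exact h4
      refine h5.trans ((mul_le_mul_of_nonneg_left w2 (by linarith)).trans ?_)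
      have h6 : 0 ≤ ε * exp s * Zc ν a h ^ 2 * (1 + statW 1 g / T) :=
        mul_nonneg (by positivity) (by have := div_nonneg hWf hT0.le; linarith)
      linarith
    · refine (rpow_change hU hD0.le hS0.le (by positivity) hε.le hε1 b2).trans ?_
      refine mul_le_mul_of_nonneg_left ?_ (rpow_nonneg (div_nonneg hS0.le hU.le) _)
      rw [← mul_assoc]; linarith

end step

lemma continuous_statW {N : ℕ} (β : ℝ) :
    Continuous fun g : Fin N × Fin N → ℝ => statW β g :=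
  continuous_expect β fun _ => continuous_expect β fun _ => continuous_const

lemma continuous_psiC {N : ℕ} {T U lam s : ℝ} (hT : 0 < T) (hU : 0 < U) (hl : 0 ≤ lam)
    (hs : 0 ≤ s) : Continuous fun g : Fin N × Fin N → ℝ => psiC T U lam s g := by
  refine continuous_const.div ((continuous_const.add ((continuous_statW 1).div_const T)).add
    (((continuous_stat 1 s).div_const U).rpow_const fun g => Or.inr hl)) fun g => ?_
  exact (cutC_pos hT hU (statW_nonneg 1 g) (le_trans zero_le_one (stat_ge_one 1 hs g))).ne'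

lemma psiC_mem {N : ℕ} {T U lam s : ℝ} (hT : 0 < T) (hU : 0 < U) (hs : 0 ≤ s)
    (g : Fin N × Fin N → ℝ) : 0 ≤ psiC T U lam s g ∧ psiC T U lam s g ≤ 1 :=
  cutC_mem hT hU (statW_nonneg 1 g) (le_trans zero_le_one (stat_ge_one 1 hs g))

section alg
variable {W G κ ε K D E X M R : ℝ} (hW : 0 ≤ W) (hε : 0 < ε) (hK : 0 ≤ K) (hD : 0 ≤ D) (hE : 0 ≤ E)
  (hκ1 : 1 ≤ κ) (hκ2 : κ ≤ 1 + 2 * ε) (hκ3 : κ ≤ 3) (hεW : ε * W ≤ G) (hX : W * X ≤ 4 * G)
  (hM : W * (M / ε) ≤ 100 * D * G)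
include hW hε hK hD hE hκ1 hκ2 hκ3 hεW hX hM

lemma stepA_alg (hX0 : 0 ≤ X) (hM0 : 0 ≤ M) (hG : 0 ≤ G) :
    W * (κ * (1 + K * (ε + X) + 48 * ε + M / (2 * ε)) + K * ε - 1)
      ≤ 40 * (K + 100 * D + E + 50) * G := by
  have a1 : (κ - 1) * W ≤ 2 * G := by
    linarith [mul_le_mul_of_nonneg_right hκ2 hW]
  have q1 : 0 ≤ W * (K * (ε + X) + 48 * ε + M / (2 * ε)) := by positivity
  have a2 : W * (K * (ε + X) + 48 * ε + M / (2 * ε)) ≤ (5 * K + 48 + 50 * D) * G := by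
    have := mul_le_mul_of_nonneg_left hεW hK
    have := mul_le_mul_of_nonneg_left hX hK
    have e : W * (M / (2 * ε)) = W * (M / ε) / 2 := by ring
    linarith
  have a3 := mul_le_mul hκ3 a2 q1 (by norm_num : (0:ℝ) ≤ 3)
  have := mul_le_mul_of_nonneg_left hεW hK
  have := mul_nonneg hK hG
  have := mul_nonneg hD hG
  have := mul_nonneg hE hG
  linarith

lemma stepB_alg (hR : R ≤ 4 * G) (hX0 : 0 ≤ X) (hM0 : 0 ≤ M) (hG : 0 ≤ G) :
    κ * (W * (1 + K * (ε + ε + X)) + K * R) + κ * (W * ((ε * E + M / ε) / 2))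
      ≤ W + 40 * (K + 100 * D + E + 50) * G := by
  have a1 : (κ - 1) * W ≤ 2 * G := by
    linarith [mul_le_mul_of_nonneg_right hκ2 hW]
  have a2 : W * (K * (ε + ε + X)) + K * R + W * ((ε * E + M / ε) / 2)
      ≤ (10 * K + E / 2 + 50 * D) * G := by
    have := mul_le_mul_of_nonneg_left hεW hK
    have := mul_le_mul_of_nonneg_left hX hK
    have := mul_le_mul_of_nonneg_left hR hK
    have := mul_le_mul_of_nonneg_left hεW hE
    linarith
  have a3 := mul_le_mul_of_nonneg_left a2 (le_trans zero_le_one hκ1)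
  have a4 := mul_le_mul_of_nonneg_right hκ3
    (mul_nonneg (by linarith : 0 ≤ 10 * K + E / 2 + 50 * D) hG)
  have := mul_nonneg hK hG
  have := mul_nonneg hD hG
  have := mul_nonneg hE hG
  linarith

end alg

/-- Averaging over the couplings of one site. -/
theorem crit_step {n : ℕ} {T U ε s : ℝ} (hn : 1 ≤ n) (hT : 1 ≤ T) (hTε : 1 / √T ≤ ε) (hε : 0 < ε)
    (hε1 : ε ≤ 1) (hs : 0 < s) (hs1 : s ≤ 1)
    (hU : U = exp (ε * (s * ((n + 1 : ℕ) : ℝ))))
    (hj : exp (-(ε * (ε * (s * ((n + 1 : ℕ) : ℝ))) / 2)) ≤ 1 / ((n + 1 : ℕ) : ℝ) ^ 6)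
    (g : Fin (n + 1) × Fin (n + 1) → ℝ) :
    (cutC T U ε (Wc (cavityGibbs 1 g)) (Dc (cavityGibbs 1 g) s) * Wc (cavityGibbs 1 g)
        - Cs * (ε * T + 1 / ε)) / ((n + 1 : ℕ) : ℝ)
      ≤ ∫ h, psiC T U ε s (overwrite g h) * rowSq 1 (overwrite g h) 0 ∂gaussVec (Fin n)
    ∧ ∫ h, psiC T U ε s (overwrite g h) * restSq 1 (overwrite g h) ∂gaussVec (Fin n)
      ≤ cutC T U ε (Wc (cavityGibbs 1 g)) (Dc (cavityGibbs 1 g) s) * Wc (cavityGibbs 1 g)
        + Cs * (ε * T + 1 / ε) := by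
  set Nr : ℝ := ((n + 1 : ℕ) : ℝ) with hNr
  have hNr0 : 0 < Nr := by rw [hNr]; positivity
  have hN1 : 1 ≤ Nr := by rw [hNr]; exact_mod_cast (by omega : 1 ≤ n + 1)
  set a := 1 / √Nr with ha
  have haN : a ^ 2 * Nr = 1 := by
    rw [ha, div_pow, sq_sqrt hNr0.le, one_pow, div_mul_cancel₀ _ hNr0.ne']
  have hnN : (n:ℝ) ≤ Nr := by rw [hNr]; push_cast; linarith
  have hab : a ^ 2 * n ≤ 1 := haN ▸ mul_le_mul_of_nonneg_left hnN (sq_nonneg a)
  have hT0 : 0 < T := by linarith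
  have hU0 : 0 < U := hU ▸ exp_pos _
  set ν := cavityGibbs 1 g with hνdef
  have hν0 : ∀ ρ, 0 ≤ ν ρ := cavityGibbs_nonneg 1 g
  have hν1 : ∑ ρ, ν ρ = 1 := cavityGibbs_sum 1 g
  have hW0 := Wc_nonneg ν
  have hD0 : 0 ≤ Dc ν s := le_trans zero_le_one (Dc_pos ν hν0 hν1 hs.le)
  set P0 := cutC T U ε (Wc ν) (Dc ν s) with hP0d
  have hP0 : 0 ≤ P0 := (cutC_mem hT0 hU0 hW0 hD0).1
  have hP1 : P0 ≤ 1 := (cutC_mem hT0 hU0 hW0 hD0).2
  set κ := 1 + 2 / √T with hκ
  have hκ1 : 1 ≤ κ := le_add_of_nonneg_right (div_nonneg two_pos.le (sqrt_nonneg _))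
  have hκ2 : κ ≤ 1 + 2 * ε := by
    rw [hκ]; linarith [show 2 / √T = 2 * (1 / √T) by ring]
  set mD := min 1 (Dc ν s * exp (-2 * (ε * (s * Nr)))) with hmD
  have hmD0 : 0 ≤ mD := le_min zero_le_one (mul_nonneg hD0 (exp_pos _).le)
  set M := 100 * Kd 1 * (ε ^ 2 + Nr ^ 4 * mD) with hM
  obtain ⟨hYi, hYle⟩ := Yc_sq (ε := ε) hν0 hν1 hab haN hnN hN1 hs.le hT
  rw [one_pow, mul_one] at hYle
  have hF0 : 0 < Dg ν (Fw T) := lt_of_lt_of_le one_pos (Dg_Fw_ge hν0 hν1 hT0.le)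
  have eC : ∀ h, cavityGibbs 1 (overwrite g h) = ν := cavityGibbs_overwrite 1 g
  have hch := fun h => psi_change (overwrite g h) (U := U) hT hU0 hε hε1 hs.le
  simp only [eC, overwrite_row] at hch
  have eRow : ∀ h, rowSq 1 (overwrite g h) 0 = ∑ j, (uf ν a j h / Zc ν a h) ^ 2 := by
    intro h; rw [rowSq_zero, eC]; simp only [overwrite_row]; rfl
  have eRest : ∀ h, restSq 1 (overwrite g h)
      = Kf ν a (fun ρ σ => overlap ρ σ ^ 2) h / Zc ν a h ^ 2 := by
    intro h; rw [restSq_eq, eC]; simp only [overwrite_row]; rfl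
  have hov : Continuous fun h : Fin n → ℝ => overwrite g h :=
    continuous_overwrite.comp (Continuous.prodMk_right g)
  have hψc := (continuous_psiC (N := n + 1) (lam := ε) hT0 hU0 hε.le hs.le).comp hov
  have hψb : ∀ h, 0 ≤ psiC T U ε s (overwrite g h) ∧ psiC T U ε s (overwrite g h) ≤ 1 := fun h =>
    psiC_mem hT0 hU0 hs.le _
  have cR : Continuous fun h => psiC T U ε s (overwrite g h) * rowSq 1 (overwrite g h) 0 :=
    hψc.mul ((continuous_rowSq 1 (0 : Fin (n + 1))).comp hov)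
  have cS : Continuous fun h => psiC T U ε s (overwrite g h) * restSq 1 (overwrite g h) :=
    hψc.mul ((continuous_restSq 1).comp hov)
  have bR : ∀ h, ‖psiC T U ε s (overwrite g h) * rowSq 1 (overwrite g h) 0‖ ≤ Nr := fun h => by
    have h0 := rowSq_nonneg 1 (overwrite g h) (0 : Fin (n + 1))
    rw [norm_eq_abs, abs_of_nonneg (mul_nonneg (hψb h).1 h0)]
    exact (mul_le_of_le_one_left h0 (hψb h).2).trans (rowSq_le 1 _ _)
  have bS : ∀ h, ‖psiC T U ε s (overwrite g h) * restSq 1 (overwrite g h)‖ ≤ Nr ^ 2 := fun h => by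
    obtain ⟨h0, h1⟩ := restSq_mem 1 (overwrite g h)
    rw [norm_eq_abs, abs_of_nonneg (mul_nonneg (hψb h).1 h0)]
    exact (mul_le_of_le_one_left h0 (hψb h).2).trans
      (h1.trans (pow_le_pow_left₀ (Nat.cast_nonneg _) hnN 2))
  have iR := Integrable.of_bound (μ := gaussVec (Fin n)) cR.aestronglyMeasurable Nr
    (Filter.Eventually.of_forall bR)
  have iA : Integrable (fun h => psiC T U ε s (overwrite g h)
      * ∑ j, (uf ν a j h / Zc ν a h) ^ 2) (gaussVec (Fin n)) :=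
    iR.congr (Filter.Eventually.of_forall fun h => by simp only [eRow])
  have hA := crit_lower (b := 1) (Nr := Nr) (s := s) (lam := ε) (κ := κ) (M := M) (P0 := P0)
    (F := Fw T) hν0 hν1 hab haN hNr0 zero_le_one hε hε1 hε.le hs.le hs1 hP0 hκ1 hYi hYle hF0
    (fun h => psiC T U ε s (overwrite g h)) (fun h => (hψb h).1) iA (fun h => (hch h).1)
  have iB : Integrable (fun h => psiC T U ε s (overwrite g h) * restSq 1 (overwrite g h))
      (gaussVec (Fin n)) := Integrable.of_bound cS.aestronglyMeasurable _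
    (Filter.Eventually.of_forall bS)
  have hB := crit_upper (b := 1) (Nr := Nr) (s := s) (lam := ε) (κ := κ) (M := M) (P0 := P0)
    (F := Fw T) hν0 hν1 hab haN hNr0 zero_le_one hε hε1 hε.le hs.le hs1 hP0 hκ1 hYi hYle hF0
    _ iB (fun h => by
      have hq : 0 ≤ Kf ν a (fun ρ σ => overlap ρ σ ^ 2) h / Zc ν a h ^ 2 :=
        div_nonneg (Kf_nonneg ν a hν0 (fun _ _ => sq_nonneg _) h) (sq_nonneg _)
      have := mul_le_mul_of_nonneg_right (hch h).2 hq
      rw [eRest]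
      refine this.trans (le_of_eq ?_)
      ring)
  obtain ⟨j1, j2, j3⟩ := junk_moments (ε := ε) (s := s) hν0 hν1 hnN hε hs.le hNr0
  set W := Wc ν
  set j := exp (-(ε * (ε * (s * Nr)) / 2)) with hjd
  have hm : P0 * mD ≤ j := (mul_le_mul_of_nonneg_right (cutC_le_cutoff hT0 hU0 hW0 hD0) hmD0).trans
    (cutoff_small hU0 hε hε1 (by positivity) (lt_of_lt_of_le one_pos (Dc_pos ν hν0 hν1 hs.le)) hU)
  -- the error terms
  set J := Nr ^ 6 * mD / ε with hJ
  have hJ0 : 0 ≤ J := by positivity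
  have hp2 : Nr ^ 2 ≤ Nr ^ 6 := pow_le_pow_right₀ hN1 (by norm_num)
  have hWX : W * (W / Nr ^ 2 / ε) ≤ 4 * ε * W + J := by
    have h1 : W ^ 2 ≤ 4 * ε ^ 2 * Nr ^ 2 * W + Nr ^ 2 * mD * Nr ^ 2 := by
      have h2 := mul_le_mul_of_nonneg_right j1 hW0
      have h3 := mul_le_mul_of_nonneg_left j3 (mul_nonneg (sq_nonneg Nr) hmD0)
      linarith
    calc W * (W / Nr ^ 2 / ε) = W ^ 2 / (Nr ^ 2 * ε) := by ring
      _ ≤ (4 * ε ^ 2 * Nr ^ 2 * W + Nr ^ 2 * mD * Nr ^ 2) / (Nr ^ 2 * ε) := by gcongr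
      _ = 4 * ε * W + Nr ^ 2 * mD / ε := by field_simp
      _ ≤ _ := by rw [hJ]; gcongr
  have hWM : W * (M / ε) ≤ 100 * Kd 1 * (ε * W + J) := by
    have h1 : W * (Nr ^ 4 * mD / ε) ≤ J := by
      calc W * (Nr ^ 4 * mD / ε) ≤ Nr ^ 2 * (Nr ^ 4 * mD / ε) := by gcongr
        _ = J := by rw [hJ]; ring
    have e : W * (M / ε) = 100 * Kd 1 * (ε * W + W * (Nr ^ 4 * mD / ε)) := by
      rw [hM]; field_simp
    rw [e]
    exact mul_le_mul_of_nonneg_left (by linarith) (mul_nonneg (by norm_num) (Kd_pos 1).le)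
  have hR4 : (a ^ 2) ^ 2 * R4 ν ≤ 4 * ε * W + J := by
    calc (a ^ 2) ^ 2 * R4 ν ≤ (a ^ 2) ^ 2 * (4 * ε ^ 2 * Nr ^ 2 * W + Nr ^ 4 * mD) :=
          mul_le_mul_of_nonneg_left j2 (sq_nonneg _)
      _ = 4 * ε ^ 2 * W * (a ^ 2 * Nr) ^ 2 + Nr ^ 2 * mD * (a ^ 2 * Nr) ^ 2 := by ring
      _ = 4 * ε ^ 2 * W + Nr ^ 2 * mD := by rw [haN]; ring
      _ ≤ _ := by
          refine add_le_add ?_ ?_
          · gcongr; exact pow_le_of_le_one hε.le hε1 two_ne_zero
          · rw [hJ]; exact le_trans (by gcongr) (le_div_self (by positivity) hε hε1)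
  obtain ⟨k1, -⟩ := consts (b := 1) zero_le_one
  have hKd := Kd_pos 1
  have he8 := exp_pos (8 : ℝ)
  have hεW : 0 ≤ ε * W := mul_nonneg hε.le hW0
  set G := ε * W + J with hG
  have hG0 : 0 ≤ G := add_nonneg hεW hJ0
  have hκ3 : κ ≤ 3 := by linarith
  have hκa : (κ - 1) * W ≤ 2 * G := by
    have := mul_le_mul_of_nonneg_right hκ2 hW0
    linarith
  have hM0 : 0 ≤ M := by rw [hM]; positivity
  have hWM' : W * (M / ε) ≤ 100 * Kd 1 * G := hWM
  have hEA := stepA_alg (κ := κ) (E := exp 8) hW0 hε (le_trans zero_le_one k1) hKd.le he8.le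
    hκ1 hκ2 hκ3 (le_add_of_nonneg_right hJ0) (by linarith : W * (W / Nr ^ 2 / ε) ≤ 4 * G) hWM'
    (by positivity) hM0 hG0
  have hEB := stepB_alg (κ := κ) (R := (a ^ 2) ^ 2 * R4 ν) (E := exp 8) hW0 hε
    (le_trans zero_le_one k1) hKd.le he8.le hκ1 hκ2 hκ3 (le_add_of_nonneg_right hJ0)
    (by linarith : W * (W / Nr ^ 2 / ε) ≤ 4 * G) hWM' (by linarith : _ ≤ 4 * G) (by positivity)
    hM0 hG0
  have hGP : P0 * G ≤ ε * T + 1 / ε := by
    have h1 : P0 * W ≤ T := cutC_mul_le hT0 hU0 hW0 hD0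
    have h2 : P0 * J ≤ 1 / ε := by
      calc P0 * J = Nr ^ 6 * (P0 * mD) / ε := by rw [hJ]; ring
        _ ≤ Nr ^ 6 * (1 / Nr ^ 6) / ε := by gcongr; exact hm.trans hj
        _ = _ := by field_simp
    have := mul_le_mul_of_nonneg_left h1 hε.le
    rw [hG]; linarith
  have hCs : 0 ≤ Cs := by unfold Cs; positivity
  have hGP' := mul_le_mul_of_nonneg_left hGP hCs
  constructor
  · simp only [eRow]
    refine le_trans ?_ hA
    rw [div_le_iff₀ hNr0]
    have e : P0 * (a ^ 2 * W * (2 - κ * (1 + Kc 1 * (ε + W / Nr ^ 2 / ε) + 48 * ε + M / (2 * ε))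
        - Kc 1 * ε)) * Nr = P0 * W - P0 * (W * (κ * (1 + Kc 1 * (ε + W / Nr ^ 2 / ε) + 48 * ε
          + M / (2 * ε)) + Kc 1 * ε - 1)) := by
      linear_combination (P0 * W * (2 - κ * (1 + Kc 1 * (ε + W / Nr ^ 2 / ε) + 48 * ε + M / (2 * ε))
        - Kc 1 * ε)) * haN
    rw [e]
    have := mul_le_mul_of_nonneg_left hEA hP0
    simp only [Cs] at hGP' ⊢
    linarith
  · refine hB.trans ?_
    rw [show (8:ℝ) * 1 = 8 by norm_num, mul_assoc (Kc 1)]
    have := mul_le_mul_of_nonneg_left hEB hP0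
    simp only [Cs] at hGP' ⊢
    linarith

end Vale.Agent.P150
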